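import Vale.Agent.P141.H457.RealBC
import Vale.Agent.P141.H92.NumAC
import Vale.Agent.P141.H389.TVraw
import Vale.Agent.P141.H336.TVst

/-!
# P141, line (A), TI, the pair `(B~, C~)` at one `x₀`

`TV_CP` : plane energy of the raw partner `k ↦ CP (b k) k` with arbitrary changes on row pieces.

-/

set_option linter.unusedSectionVars false

namespace Vale.Agent.P141.H581.TVCP

open Finset Matrix
open Vale.Agent.P075 (Ix val bd rad res phi exists_sq psd_isSymm psd_conj_symm trace_mul_nonneg)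
open Vale.Agent.P141.PL (iv ix mem_iv)
open Vale.Agent.P141.PL.H103 Vale.Agent.P141.H103
open Vale.Agent.P141.H419.PairB (WPair mvM mvD)
open Vale.Agent.P141.H585.PairO (mh)
open Vale.Agent.P141.H389 (TV)

open Vale.Agent.P141.H874 Vale.Agent.P141.H457

noncomputable section

variable {κ : Type*} [Fintype κ] [DecidableEq κ]

/-! ### Sums over points -/

/-- the trace against a block diagonal weight, summed over all boxes -/
theorem bsum_DB {N a k : ℕ} (ha : a ≤ N) (hk : k ≤ N) (R S : ℤ) (b : ℤ → ℤ → κ → ℝ)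
    (F : ℤ → ℤ → Matrix κ κ ℝ) :
    H336.bsum N R S k a (fun n m => (CP b k a n m * DB k m (F n)).trace)
      = ∑ x ∈ iv N S, ∑ y ∈ iv N R, b x y ⬝ᵥ F (ix a y) x *ᵥ b x y := by
  unfold H336.bsum
  have e1 : ∀ m, ∑ n ∈ iv (N - a) R, (CP b k a n m * DB k m (F n)).trace
      = ((2 : ℝ) ^ k * 2 ^ a)⁻¹ * ∑ x ∈ iv k m, ∑ y ∈ iv N R, b x y ⬝ᵥ F (ix a y) x *ᵥ b x y := by
    intro m
    simp only [trace_CP_DB]
    rw [← Finset.mul_sum]
    congr 1
    rw [Finset.sum_comm]
    refine Finset.sum_congr rfl fun x _ => ?_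
    exact H258.sum_sub ha R fun n y => b x y ⬝ᵥ F n x *ᵥ b x y
  simp only [e1]
  rw [← Finset.mul_sum, H258.sum_sub hk S fun _ x => ∑ y ∈ iv N R, b x y ⬝ᵥ F (ix a y) x *ᵥ b x y,
    ← mul_assoc, mul_comm ((2 : ℝ) ^ a) (2 ^ k), mul_inv_cancel₀ (by positivity), one_mul]

/-- mass of a vector slot -/
def mB (N : ℕ) (R S : ℤ) (b : ℤ → ℤ → κ → ℝ) : ℝ := ∑ x ∈ iv N S, ∑ y ∈ iv N R, b x y ⬝ᵥ b x y

theorem mB_nonneg (N : ℕ) (R S : ℤ) (b : ℤ → ℤ → κ → ℝ) : 0 ≤ mB N R S b :=
  Finset.sum_nonneg fun _ _ => Finset.sum_nonneg fun _ _ => Finset.sum_nonneg fun _ _ => mul_self_nonneg _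

theorem bsum_tr {N a k : ℕ} (ha : a ≤ N) (hk : k ≤ N) (R S : ℤ) (b : ℤ → ℤ → κ → ℝ) :
    H336.bsum N R S k a (fun n m => (CP b k a n m).trace) = mB N R S b := by
  have h := bsum_DB ha hk R S b fun _ _ => (1 : Matrix κ κ ℝ)
  simp only [DB_one, Matrix.mul_one, one_mulVec] at h
  exact h

/-! ### Plane energy of the raw partner -/

/-- own middle inequality of the raw family -/
theorem CP_own_pt (f : ℤ → ℤ → κ → ℝ) (k a : ℕ) (n m : ℤ) :
    (CP f (k + 1) a n m * CP f (k + 1) a n m).trace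
      ≤ (1 / 2) * ((CP f k a n (2 * m) * CP f k a n (2 * m)).trace
        + (CP f k a n (2 * m + 1) * CP f k a n (2 * m + 1)).trace) := by
  set X := CP f (k + 1) a n m with hX
  set r := sk (k + 1) κ with hr
  have hsub : r.submatrix (eS k κ) (eS k κ) = rad (Ix k × κ) := sk_split k
  have eG : (X + r * X * r).submatrix (eS k κ) (eS k κ) =
      bd (CP f k a n (2 * m)) (CP f k a n (2 * m + 1)) := by
    rw [submatrix_add, Pi.add_apply, Pi.add_apply, ← mul_sub', ← mul_sub', hsub]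
    exact BM_split k m _
  have pX : X.PosSemidef := CP_psd _ _ _ _ _
  have e1 : ((X + r * X * r) * (X + r * X * r)).trace
      = 2 * (X * X).trace + 2 * (X * (r * X * r)).trace := by
    have hrr : r * r = 1 := sk_sq _
    have a1 : ((r * X * r) * (r * X * r)).trace = (X * X).trace := by
      have : (r * X * r) * (r * X * r) = r * (X * (r * r) * X * r) := by
        simp only [Matrix.mul_assoc]
      rw [this, hrr, Matrix.mul_one, trace_mul_comm, Matrix.mul_assoc, hrr, Matrix.mul_one]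
    rw [Matrix.add_mul, Matrix.mul_add, Matrix.mul_add, trace_add, trace_add, trace_add, a1,
      trace_mul_comm (r * X * r) X]
    ring
  have e2 : ((X + r * X * r) * (X + r * X * r)).trace
      = (CP f k a n (2 * m) * CP f k a n (2 * m)).trace
        + (CP f k a n (2 * m + 1) * CP f k a n (2 * m + 1)).trace := by
    rw [← trace_sub' (eS k κ), ← mul_sub', eG, trace_bd_mul]
    simp only [bd, toBlocks_fromBlocks₁₁, toBlocks_fromBlocks₂₂]
  have e3 := trace_mul_nonneg pX (psd_conj_symm pX (sk_tr (k + 1) (κ := κ)))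
  rw [← hr] at e3
  linarith

theorem CP_own {N k : ℕ} (hk : k < N) (R S : ℤ) (f : ℤ → ℤ → κ → ℝ) (a : ℕ) :
    EW N R S (k + 1) (CP f (k + 1)) a ≤ EW N R S k (CP f k) a :=
  EW_mid0 hk fun n m => CP_own_pt f k a n m

open Classical in
/-- the changed part is below the cap of the new function -/
theorem rs_cap {q : ℝ} {k a : ℕ} {P : ℤ → ℤ → Prop} {f : ℤ → ℤ → κ → ℝ} {n m : ℤ}
    (h : (q • (1 : Matrix (Ix k × κ) (Ix k × κ) ℝ) - CP f k a n m).PosSemidef) :
    (q • (1 : Matrix (Ix k × κ) (Ix k × κ) ℝ) - CP (rs P k f) k a n m).PosSemidef := by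
  set f0 : ℤ → ℤ → κ → ℝ := fun x w => if P w (ix k x) then 0 else f x w with hf0
  have h2 := CP_change (k := k) (P := P) (f := f0) (f' := f)
    (fun w m hP x hx => by rw [mem_iv] at hx; simp only [hf0, hx, hP, if_false]) a n m
  have h3 : (CP f0 k a n m).PosSemidef := CP_psd _ _ _ _ _
  have h4 : rs P k f0 = fun _ _ => (0 : κ → ℝ) := by
    funext x w
    unfold rs
    by_cases hz : P w (ix k x)
    · simp only [hf0, hz, if_true]
    · simp only [hz, if_false]
  have h5 : CP (fun _ _ => (0 : κ → ℝ)) k a n m = 0 := by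
    ext p p'
    simp [CP, BM, XR]
  rw [h4, h5, add_zero] at h2
  have h6 : q • (1 : Matrix (Ix k × κ) (Ix k × κ) ℝ) - CP (rs P k f) k a n m
      = (q • 1 - CP f k a n m) + CP f0 k a n m := by
    rw [← h2]
    abel
  rw [h6]
  exact h.add h3

/-- **Plane energy of the raw partner**, arbitrary changes on row pieces. -/
theorem TV_CP {N : ℕ} {R S : ℤ} {q : ℝ} (hq : 0 ≤ q)
    {b : ℕ → ℤ → ℤ → κ → ℝ} {P : ℕ → ℤ → ℤ → Prop}
    (hP : ∀ k < N, ∀ w m, ¬ P k w m → ∀ x ∈ iv k m, b (k + 1) x w = b k x w)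
    (c0 : ∀ k a, k ≤ a → a ≤ N → ∀ n m,
      (q • (1 : Matrix (Ix k × κ) (Ix k × κ) ℝ) - CP (b k) k a n m).PosSemidef)
    (c1 : ∀ k a, k < N → k ≤ a → a ≤ N → ∀ n m,
      (q • (1 : Matrix (Ix k × κ) (Ix k × κ) ℝ) - CP (b (k + 1)) k a n m).PosSemidef)
    {EB : ℝ} (hE : mB N R S (b 0) ≤ EB)
    (hD : ∑ k ∈ Ico 0 N, mB N R S (rs (P k) k (b (k + 1))) ≤ EB) :
    TV 0 N R S (fun k => CP (b k) k) ≤ 308 * (q * EB) := by
  have own : ∀ k, 0 ≤ k → k < N → ∀ a, k + 1 ≤ a → a ≤ N →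
      EW N R S (k + 1) (CP (b (k + 1)) (k + 1)) a ≤ EW N R S k (CP (b k) k) a
        + 3 * (q * mB N R S (rs (P k) k (b (k + 1)))) := by
    intro k h1 h2 a h3 h4
    refine (CP_own h2 R S (b (k + 1)) a).trans ?_
    have hs := bsum_tr h4 h2.le R S (rs (P k) k (b (k + 1)))
    have hsm : EW N R S k (CP (b (k + 1)) k) a
        ≤ H336.bsum N R S k a (fun n m => (CP (b k) k a n m * CP (b k) k a n m).trace
          + 3 * (q * (CP (rs (P k) k (b (k + 1))) k a n m).trace)) := by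
      refine H336.bsum_mono (f := fun n m => (CP (b (k + 1)) k a n m * CP (b (k + 1)) k a n m).trace)
        fun n m => ?_
      exact H389.sq_change (CP_psd _ _ _ _ _) (CP_psd _ _ _ _ _) (CP_psd _ _ _ _ _)
        (CP_psd _ _ _ _ _) (c0 k a (by omega) h4 n m) (rs_cap (c1 k a h2 (by omega) h4 n m))
        (CP_change (hP k h2) a n m)
    refine hsm.trans (le_of_eq ?_)
    have e : (fun n m => (CP (b k) k a n m * CP (b k) k a n m).trace
          + 3 * (q * (CP (rs (P k) k (b (k + 1))) k a n m).trace))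
        = fun n m => (CP (b k) k a n m * CP (b k) k a n m).trace
          + (3 * q) * (CP (rs (P k) k (b (k + 1))) k a n m).trace := by
      funext n m
      ring
    rw [e, H336.bsum_add, H336.bsum_smul, hs, mul_assoc]
    rfl
  have t := H92.TV_exactE (Nat.zero_le N) (R := R) (S := S) (P := fun k => CP (b k) k)
    (d := fun k => 3 * (q * mB N R S (rs (P k) k (b (k + 1)))))
    (fun k => mul_nonneg (by norm_num) (mul_nonneg hq (mB_nonneg _ _ _ _)))
    (fun k _ _ => CP_out N k (b k)) (fun k a n m => CP_symm (b k) k a n m) own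
  have st : EW N R S 0 (CP (b 0) 0) 0 ≤ q * EB := by
    have hs := bsum_tr (Nat.zero_le N) (Nat.zero_le N) R S (b 0)
    have h1 : EW N R S 0 (CP (b 0) 0) 0
        ≤ H336.bsum N R S 0 0 fun n m => q * (CP (b 0) 0 0 n m).trace := by
      refine H336.bsum_mono (f := fun n m => (CP (b 0) 0 0 n m * CP (b 0) 0 0 n m).trace)
        fun n m => ?_
      have := P075.trace_mul_le_left (CP_psd (b 0) 0 0 n m) (c0 0 0 le_rfl (Nat.zero_le N) n m)
      rwa [Matrix.smul_mul, Matrix.one_mul, trace_smul, smul_eq_mul] at this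
    refine h1.trans ?_
    rw [H336.bsum_smul, hs]
    exact mul_le_mul_of_nonneg_left hE hq
  have e2 : ∑ k ∈ Ico 0 N, 3 * (q * mB N R S (rs (P k) k (b (k + 1)))) ≤ 3 * (q * EB) := by
    rw [← Finset.mul_sum, ← Finset.mul_sum]
    exact mul_le_mul_of_nonneg_left (mul_le_mul_of_nonneg_left hD hq) (by norm_num)
  linarith

end

end Vale.Agent.P141.H581.TVCP
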