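import Vale.Agent.P141.H581.StageT

/-!
# P141, line W: the stage sum with raw partners, summed over a family

The version of `stageT` for a finite family of node matrices (one member for every point `x0`):
all pair sums are needed only in the sum over the family. The caps do not depend on the member.
-/

namespace Vale.Agent.P141.H581

open Finset Matrix Vale.Agent.P075 Vale.Agent.P141.PL Vale.Agent.P141.PL.H588
open Vale.Agent.P141.PL.H804 Vale.Agent.P141.H958 Vale.Agent.P141.H609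

noncomputable section

variable {X : Type*} {I : Finset X} {N : ℕ} {s : X → ℕ → Finset Pt} {τ cC : ℝ}
  {FA FB FC F H : X → NM}

/-- the raw pair sum of a family -/
def RX (I : Finset X) (N : ℕ) (s : X → ℕ → Finset Pt) (x y : ℝ) (F H : X → NM) : ℝ :=
  ∑ i ∈ I, RP N (s i) x y (F i) (H i)

/-- the form of a family -/
def UX (I : Finset X) (N : ℕ) (s : X → ℕ → Finset Pt) (cA cB cC : ℝ) (FA FB FC : X → NM)
    (a b e : ℕ) : ℝ :=
  ∑ i ∈ I, UN N (s i) cA cB cC (FA i) (FB i) (FC i) a b e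

theorem RX_nonneg {x y : ℝ} : 0 ≤ RX I N s x y F H := sum_nonneg fun _ _ => RP_nonneg

theorem RX_mono {x x' y y' : ℝ} (hx : 0 < x) (hy : 0 < y) (hxx : x ≤ x') (hyy : y ≤ y') :
    RX I N s x y F H ≤ RX I N s x' y' F H :=
  sum_le_sum fun _ _ => RP_mono hx hy hxx hyy

/-- Cauchy-Schwarz over the family -/
theorem sum_sqrt_le {f g : X → ℝ} (hf : ∀ i, 0 ≤ f i) (hg : ∀ i, 0 ≤ g i) :
    ∑ i ∈ I, √(f i * g i) ≤ √((∑ i ∈ I, f i) * ∑ i ∈ I, g i) := by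
  have h := Real.sum_sqrt_mul_sqrt_le I hf hg
  rw [Real.sqrt_mul (sum_nonneg fun i _ => hf i)]
  refine le_trans (sum_le_sum fun i _ => ?_) h
  rw [Real.sqrt_mul (hf i)]

section steps

variable (hτ : 0 < τ) (hC : 0 < cC)
  (capA : ∀ i ∈ I, ∀ k ∈ Icc 1 N, ∀ m ∈ s i k,
    (1 - gramC ((τ ^ 2)⁻¹ * (4 ^ k)⁻¹) (FA i k m)).PosSemidef)
  (capB : ∀ i ∈ I, ∀ k ∈ Icc 1 N, ∀ m ∈ s i k,
    (1 - gramC ((τ ^ 2)⁻¹ * (4 ^ k)⁻¹) (FB i k m)).PosSemidef)
  (capC : ∀ i ∈ I, ∀ k ∈ Icc 1 N, ∀ m ∈ s i k,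
    (1 - gramC ((cC ^ 2)⁻¹ * (4 ^ k)⁻¹) (FC i k m)).PosSemidef)

include hτ hC capA capB capC

theorem UX_A (a b e : ℕ) :
    UX I N s τ τ cC FA FB FC a b e ≤ UX I N s τ τ cC FA FB FC (a + 1) b e +
      6 * ((τ / 2 ^ (a - 1))⁻¹ * √(RX I N s (cC / 2 ^ (e - 1)) (τ / 2 ^ (a - 1)) FC FA *
        RX I N s (τ / 2 ^ (a - 1)) (τ / 2 ^ (b - 1)) FA FB)) := by
  have h1 : ∀ i ∈ I, UN N (s i) τ τ cC (FA i) (FB i) (FC i) a b e ≤
      UN N (s i) τ τ cC (FA i) (FB i) (FC i) (a + 1) b e + 6 * ((τ / 2 ^ (a - 1))⁻¹ *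
        √(RP N (s i) (cC / 2 ^ (e - 1)) (τ / 2 ^ (a - 1)) (FC i) (FA i) *
          RP N (s i) (τ / 2 ^ (a - 1)) (τ / 2 ^ (b - 1)) (FA i) (FB i))) := fun i hi =>
    UN_A hτ hτ hC (capA i hi) (capB i hi) (capC i hi) a b e le_rfl le_rfl
  refine (sum_le_sum h1).trans ?_
  rw [sum_add_distrib, ← mul_sum, ← mul_sum]
  refine add_le_add_right (mul_le_mul_of_nonneg_left (mul_le_mul_of_nonneg_left
    (sum_sqrt_le (fun i => RP_nonneg) fun i => RP_nonneg) (by positivity)) (by norm_num)) _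

theorem UX_B (a b e : ℕ) :
    UX I N s τ τ cC FA FB FC a b e ≤ UX I N s τ τ cC FA FB FC a (b + 1) e +
      6 * ((τ / 2 ^ (b - 1))⁻¹ * √(RX I N s (τ / 2 ^ (a - 1)) (τ / 2 ^ (b - 1)) FA FB *
        RX I N s (τ / 2 ^ (b - 1)) (cC / 2 ^ (e - 1)) FB FC)) := by
  have h1 : ∀ i ∈ I, UN N (s i) τ τ cC (FA i) (FB i) (FC i) a b e ≤
      UN N (s i) τ τ cC (FA i) (FB i) (FC i) a (b + 1) e + 6 * ((τ / 2 ^ (b - 1))⁻¹ *
        √(RP N (s i) (τ / 2 ^ (a - 1)) (τ / 2 ^ (b - 1)) (FA i) (FB i) *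
          RP N (s i) (τ / 2 ^ (b - 1)) (cC / 2 ^ (e - 1)) (FB i) (FC i))) := fun i hi =>
    UN_B hτ hτ hC (capA i hi) (capB i hi) (capC i hi) a b e le_rfl le_rfl
  refine (sum_le_sum h1).trans ?_
  rw [sum_add_distrib, ← mul_sum, ← mul_sum]
  refine add_le_add_right (mul_le_mul_of_nonneg_left (mul_le_mul_of_nonneg_left
    (sum_sqrt_le (fun i => RP_nonneg) fun i => RP_nonneg) (by positivity)) (by norm_num)) _

theorem UX_C (a b e : ℕ) :
    UX I N s τ τ cC FA FB FC a b e ≤ UX I N s τ τ cC FA FB FC a b (e + 1) +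
      6 * ((cC / 2 ^ (e - 1))⁻¹ * √(RX I N s (τ / 2 ^ (b - 1)) (cC / 2 ^ (e - 1)) FB FC *
        RX I N s (cC / 2 ^ (e - 1)) (τ / 2 ^ (a - 1)) FC FA)) := by
  have h1 : ∀ i ∈ I, UN N (s i) τ τ cC (FA i) (FB i) (FC i) a b e ≤
      UN N (s i) τ τ cC (FA i) (FB i) (FC i) a b (e + 1) + 6 * ((cC / 2 ^ (e - 1))⁻¹ *
        √(RP N (s i) (τ / 2 ^ (b - 1)) (cC / 2 ^ (e - 1)) (FB i) (FC i) *
          RP N (s i) (cC / 2 ^ (e - 1)) (τ / 2 ^ (a - 1)) (FC i) (FA i))) := fun i hi =>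
    UN_C hτ hτ hC (capA i hi) (capB i hi) (capC i hi) a b e le_rfl le_rfl
  refine (sum_le_sum h1).trans ?_
  rw [sum_add_distrib, ← mul_sum, ← mul_sum]
  refine add_le_add_right (mul_le_mul_of_nonneg_left (mul_le_mul_of_nonneg_left
    (sum_sqrt_le (fun i => RP_nonneg) fun i => RP_nonneg) (by positivity)) (by norm_num)) _

theorem UX_tail : ∃ K : ℝ, ∀ a b e : ℕ,
    UX I N s τ τ cC FA FB FC a b e ≤ K * (2 ^ (a + b + e))⁻¹ := by
  have h1 : ∀ i : X, ∃ K : ℝ, i ∈ I → ∀ a b e : ℕ,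
      UN N (s i) τ τ cC (FA i) (FB i) (FC i) a b e ≤ K * (2 ^ (a + b + e))⁻¹ := by
    intro i
    by_cases hi : i ∈ I
    · obtain ⟨K, _, hK⟩ := UN_tail (FA := FA i) (FB := FB i) (FC := FC i) hτ hτ hC (capA i hi)
        (capB i hi) (capC i hi)
      exact ⟨K, fun _ => hK⟩
    · exact ⟨0, fun h => absurd h hi⟩
  choose K hK using h1
  refine ⟨∑ i ∈ I, K i, fun a b e => ?_⟩
  unfold UX
  rw [sum_mul]
  exact sum_le_sum fun i hi => hK i hi a b e

/-- **The stage sum of a family, raw partners**: `E` steps of the third function with its cost kept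
as a sum over the levels, `D ≥ 1` steps of the first two functions together, then the tail. The
third function stands at the level `cC / 2 ^ (E - 1)`. -/
theorem stageX' {P₀ QA QB Z : ℝ} (hP₀ : 0 ≤ P₀) (hQA0 : 0 ≤ QA) (hQB0 : 0 ≤ QB) (hZ : 0 ≤ Z)
    {D E : ℕ} (hD : 1 ≤ D)
    (hAB : ∀ x y, 0 < x → x ≤ τ → 0 < y → y ≤ τ → RX I N s x y FA FB ≤ P₀ * (x * y))
    {κ' : ℝ}
    (hT : ∀ e < E, √(RX I N s τ (cC / 2 ^ (e - 1)) FB FC * RX I N s (cC / 2 ^ (e - 1)) τ FC FA) ≤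
      κ' * (cC / 2 ^ (e - 1)))
    (hQA : RX I N s (cC / 2 ^ (E - 1)) τ FC FA ≤ QA)
    (hQB : RX I N s τ (cC / 2 ^ (E - 1)) FB FC ≤ QB)
    (hcr : ∀ y, 0 < y → y ≤ τ / 2 ^ (D - 1) → RX I N s (cC / 2 ^ (E - 1)) y FC FA ≤ Z * y) :
    UX I N s τ τ cC FA FB FC 0 0 0 ≤ 6 * κ' * E + 6 * D * (√(P₀ * QA) + √(P₀ * QB)) +
      21 * √(P₀ * QB) + 42 * √(P₀ * Z * (τ / 2 ^ (D - 1))) := by
  obtain ⟨K, hK⟩ := UX_tail hτ hC capA capB capC
  set xC := cC / 2 ^ (E - 1) with hxC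
  have pC : 0 < xC := by positivity
  have lp : ∀ a : ℕ, 0 < τ / 2 ^ (a - 1) := fun a => by positivity
  have ll : ∀ a : ℕ, τ / 2 ^ (a - 1) ≤ τ := fun a => div_le_self hτ.le (one_le_pow₀ (by norm_num))
  have QAm : ∀ a : ℕ, RX I N s xC (τ / 2 ^ (a - 1)) FC FA ≤ QA := fun a =>
    (RX_mono pC (lp a) le_rfl (ll a)).trans hQA
  have QBm : ∀ b : ℕ, RX I N s (τ / 2 ^ (b - 1)) xC FB FC ≤ QB := fun b =>
    (RX_mono (lp b) pC (ll b) le_rfl).trans hQB
  -- the centre is the first function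
  have stA : ∀ {a b : ℕ} {x q : ℝ}, 0 ≤ q → RX I N s xC (τ / 2 ^ (a - 1)) FC FA ≤ q →
      √(P₀ * q * (τ / 2 ^ (b - 1)) / (τ / 2 ^ (a - 1))) ≤ x →
      UX I N s τ τ cC FA FB FC a b E ≤ UX I N s τ τ cC FA FB FC (a + 1) b E + 6 * x := by
    intro a b x q hq h1 h2
    refine (UX_A hτ hC capA capB capC a b E).trans ?_
    refine add_le_add_right (mul_le_mul_of_nonneg_left (le_trans ?_ h2) (by norm_num)) _
    have h3 := mul_le_mul h1 (hAB _ _ (lp a) (ll a) (lp b) (ll b)) RX_nonneg hq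
    have pa := lp a
    have pb := lp b
    set ya := τ / 2 ^ (a - 1)
    set yb := τ / 2 ^ (b - 1)
    refine (mul_le_mul_of_nonneg_left (Real.sqrt_le_sqrt h3) (by positivity)).trans (le_of_eq ?_)
    rw [← Real.sqrt_sq (inv_nonneg.mpr pa.le), ← Real.sqrt_mul (by positivity)]
    congr 1
    field_simp
  -- the centre is the second function
  have stB : ∀ {a b : ℕ} {x : ℝ},
      √(P₀ * QB * (τ / 2 ^ (a - 1)) / (τ / 2 ^ (b - 1))) ≤ x →
      UX I N s τ τ cC FA FB FC a b E ≤ UX I N s τ τ cC FA FB FC a (b + 1) E + 6 * x := by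
    intro a b x h2
    refine (UX_B hτ hC capA capB capC a b E).trans ?_
    refine add_le_add_right (mul_le_mul_of_nonneg_left (le_trans ?_ h2) (by norm_num)) _
    have pa := lp a
    have pb := lp b
    have h3 := mul_le_mul (hAB _ _ pa (ll a) pb (ll b)) (QBm b) RX_nonneg
      (mul_nonneg hP₀ (mul_nonneg pa.le pb.le))
    set ya := τ / 2 ^ (a - 1)
    set yb := τ / 2 ^ (b - 1)
    refine (mul_le_mul_of_nonneg_left (Real.sqrt_le_sqrt h3) (by positivity)).trans (le_of_eq ?_)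
    rw [← Real.sqrt_sq (inv_nonneg.mpr pb.le), ← Real.sqrt_mul (by positivity)]
    congr 1
    field_simp
  -- part 1
  have q1 := sched1 (f := UX I N s τ τ cC FA FB FC) (κ := 6 * κ') (E := E) (fun e he => by
    have h := UX_C hτ hC capA capB capC 0 0 e
    simp only [Nat.zero_sub, pow_zero, div_one] at h
    refine h.trans (add_le_add_right (mul_le_mul_of_nonneg_left ?_ (by norm_num)) _)
    have pe : 0 < cC / 2 ^ (e - 1) := by positivity
    have h2 := mul_le_mul_of_nonneg_left (hT e he) (inv_nonneg.mpr pe.le)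
    refine h2.trans (le_of_eq ?_)
    field_simp)
  -- part 2
  have q2 := sched2 (f := UX I N s τ τ cC FA FB FC) (κA := 6 * √(P₀ * QA)) (κB := 6 * √(P₀ * QB))
    (D := D) (E := E)
    (fun j _ => stA (a := j) (b := j) hQA0 (QAm j) (by
      have := lp j
      rw [mul_div_assoc, div_self this.ne', mul_one]))
    (fun j _ => stB (a := j + 1) (b := j) (by
      refine Real.sqrt_le_sqrt ?_
      have hj := lp j
      rw [div_le_iff₀ hj]
      refine mul_le_mul_of_nonneg_left ?_ (mul_nonneg hP₀ hQB0)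
      exact div_le_div_of_nonneg_left hτ.le (by positivity)
        (pow_le_pow_right₀ (by norm_num) (by omega))))
  -- part 3
  have eD : ∀ i : ℕ, τ / 2 ^ (D + i - 1) = τ / 2 ^ (D - 1) * (2 ^ i)⁻¹ := by
    intro i
    rw [show D + i - 1 = (D - 1) + i by omega, pow_add]
    field_simp
  set σ := τ / 2 ^ (D - 1) with hσ
  have pσ : 0 < σ := by positivity
  have lσ : ∀ i : ℕ, τ / 2 ^ (D + i - 1) ≤ σ := by
    intro i
    rw [eD]
    exact mul_le_of_le_one_right pσ.le (inv_le_one_of_one_le₀ (one_le_pow₀ (by norm_num)))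
  have r2 : ∀ j : ℕ, rr ^ j = √((2 ^ j)⁻¹) := by
    intro j
    rw [← Real.sqrt_sq (pow_nonneg rr_pos.le j), ← pow_mul, mul_comm, pow_mul, rr_sq, inv_pow]
  have hcA : ∀ (i j : ℕ), √(P₀ * (Z * (τ / 2 ^ (D + i - 1))) * (τ / 2 ^ (D + j - 1)) /
      (τ / 2 ^ (D + i - 1))) ≤ √(P₀ * Z * σ) * rr ^ j := by
    intro i j
    rw [r2, ← Real.sqrt_mul (by positivity)]
    refine Real.sqrt_le_sqrt (le_of_eq ?_)
    have := lp (D + i)
    rw [eD j]
    field_simp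
  have q3 := sched3 (f := UX I N s τ τ cC FA FB FC) (K := K) (α := 6 * √(P₀ * Z * σ))
    (β := 6 * √(P₀ * QB)) (D := D) (E := E) (by positivity) (by positivity) hK
    (fun j => by
      have h := stA (a := D + 2 * j) (b := D + j) (q := Z * (τ / 2 ^ (D + 2 * j - 1)))
        (mul_nonneg hZ (lp _).le) (hcr _ (lp _) (lσ _)) (hcA _ _)
      rw [← mul_assoc] at h
      exact h)
    (fun j => by
      have h := stA (a := D + 2 * j + 1) (b := D + j) (q := Z * (τ / 2 ^ (D + (2 * j + 1) - 1)))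
        (mul_nonneg hZ (lp _).le) (hcr _ (lp _) (lσ (2 * j + 1))) (hcA (2 * j + 1) j)
      rw [← mul_assoc] at h
      exact h)
    (fun j => by
      have h := stB (a := D + 2 * j + 2) (b := D + j) (x := √(P₀ * QB) * rr ^ j) (by
        rw [r2, ← Real.sqrt_mul (by positivity)]
        refine Real.sqrt_le_sqrt ?_
        have hb := lp (D + j)
        rw [div_le_iff₀ hb, show D + 2 * j + 2 = D + (2 * j + 2) by ring, eD, eD,
          mul_assoc (P₀ * QB)]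
        refine mul_le_mul_of_nonneg_left ?_ (mul_nonneg hP₀ hQB0)
        have h4 : ((2 : ℝ) ^ (2 * j + 2))⁻¹ ≤ (2 ^ j)⁻¹ * (2 ^ j)⁻¹ := by
          rw [← mul_inv, ← pow_add]
          exact inv_anti₀ (by positivity) (pow_le_pow_right₀ (by norm_num) (by omega))
        have h5 := mul_le_mul_of_nonneg_left h4 pσ.le
        linarith)
      rw [← mul_assoc] at h
      exact h)
  have e1 : 7 / 2 * (2 * (6 * √(P₀ * Z * σ)) + 6 * √(P₀ * QB)) =
      21 * √(P₀ * QB) + 42 * √(P₀ * Z * σ) := by ring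
  rw [e1] at q3
  linarith

/-- **The stage sum of a family, raw partners**, levels as numbers: `g` for the third function,
`σ` for the tail. -/
theorem stageX {P₀ QA QB Z κ' g σ : ℝ} (hP₀ : 0 ≤ P₀) (hQA0 : 0 ≤ QA) (hQB0 : 0 ≤ QB)
    (hZ : 0 ≤ Z) (hκ : 0 ≤ κ') {D L₀ : ℕ} (hD : 1 ≤ D)
    (hDσ : τ / 2 ^ (D - 1) ≤ σ) (hL : cC / 2 ^ (L₀ - 1) ≤ g)
    (hAB : ∀ x y, 0 < x → x ≤ τ → 0 < y → y ≤ τ → RX I N s x y FA FB ≤ P₀ * (x * y))
    (hT : ∀ x, g ≤ x → x ≤ cC → √(RX I N s τ x FB FC * RX I N s x τ FC FA) ≤ κ' * x)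
    (hQA : RX I N s g τ FC FA ≤ QA) (hQB : RX I N s τ g FB FC ≤ QB)
    (hcr : ∀ y, 0 < y → y ≤ σ → RX I N s g y FC FA ≤ Z * y) :
    UX I N s τ τ cC FA FB FC 0 0 0 ≤ 6 * κ' * L₀ + 6 * D * (√(P₀ * QA) + √(P₀ * QB)) +
      21 * √(P₀ * QB) + 42 * √(P₀ * Z * σ) := by
  classical
  have hex : ∃ e : ℕ, cC / 2 ^ (e - 1) ≤ g := ⟨L₀, hL⟩
  set E := Nat.find hex with hE
  have h1 : cC / 2 ^ (E - 1) ≤ g := Nat.find_spec hex
  have h2 : E ≤ L₀ := Nat.find_min' hex hL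
  have h3 : ∀ e < E, g < cC / 2 ^ (e - 1) := fun e he => not_le.1 (Nat.find_min hex he)
  have pE : 0 < cC / 2 ^ (E - 1) := by positivity
  have pD : 0 < τ / 2 ^ (D - 1) := by positivity
  have h := stageX' (E := E) hτ hC capA capB capC hP₀ hQA0 hQB0 hZ hD hAB
    (fun e he => hT _ (h3 e he).le (div_le_self hC.le (one_le_pow₀ (by norm_num))))
    ((RX_mono pE hτ h1 le_rfl).trans hQA) ((RX_mono hτ pE le_rfl h1).trans hQB)
    (fun y hy hyD => (RX_mono pE hy h1 le_rfl).trans (hcr y hy (hyD.trans hDσ)))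
  refine h.trans ?_
  have a1 : 6 * κ' * (E : ℝ) ≤ 6 * κ' * L₀ :=
    mul_le_mul_of_nonneg_left (by exact_mod_cast h2) (by positivity)
  have a2 : √(P₀ * Z * (τ / 2 ^ (D - 1))) ≤ √(P₀ * Z * σ) :=
    Real.sqrt_le_sqrt (mul_le_mul_of_nonneg_left hDσ (mul_nonneg hP₀ hZ))
  linarith

end steps

end

end Vale.Agent.P141.H581
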