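import Vale.Agent.P141.H581.FixBC
import Vale.Agent.P141.H419.WFamA
import Vale.Agent.P141.H736.LbcX
import Vale.Agent.P141.H784.PayB

/-!
# P141, line (A), TI, the pair `(B~, C~)` at one `x₀`: all numbers as plain sums over points

`fixBC_W` : `fixBC` with the own numbers and the plane energy of the second slot from the two
families of `H419.WFamR` (the path and the shifted path), kills by `H736.X_le`.
-/

set_option linter.unusedSectionVars false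

namespace Vale.Agent.P141.H581.FixBC

open Finset Matrix
open Vale.Agent.P075 (Ix val bd rad res phi exists_sq psd_isSymm psd_conj_symm trace_mul_nonneg)
open Vale.Agent.P141.PL (iv ix mem_iv)
open Vale.Agent.P141.PL.H103 Vale.Agent.P141.H103
open Vale.Agent.P141.H419.PairB (WPair mvM mvD gnV)
open Vale.Agent.P141.H585.PairO (gp mh mh_nonneg)
open Vale.Agent.P141.H585.PairCh (dls)
open Vale.Agent.P141.H389 (TV)
open Vale.Agent.P141.H784 (av)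
open Vale.Agent.P141.H736 (wE X_le)
open Vale.Agent.P141.H912 (OwL OwL_eq wS wS_nonneg wS_mono wS_zero_le wS_smul wS_add)
open Vale.Agent.P141.H419.WFamR (Wn Dn En nmH nmD nmE nmB c1 P1 OM_real OO_real TV_real nmH_c1
  nmD_c1 nmE_c1 nmB_c1 nmH_nonneg nmD_nonneg nmE_nonneg nmB_nonneg Wn_nonneg Dn_nonneg En_nonneg)
open Vale.Agent.P141.H874 Vale.Agent.P141.H457 Vale.Agent.P141.H581.TVCP

noncomputable section

variable {κ : Type*} [Fintype κ] [DecidableEq κ]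

/-- own numbers from one number -/
theorem OwL_one {J r : ℕ} {bi : ℝ} (hbi : 1 ≤ bi) {H D E' B : ℕ → ℝ} (hH : 0 ≤ H r)
    (_hD : 0 ≤ D r) (hE : 0 ≤ E' r) (hB : 0 ≤ B r) :
    OwL J H (fun r => 2 * bi * D r) (fun r => 2 * E' r) (fun r => ((J : ℝ) + 1) * B r) r ≤
      ((J : ℝ) + 1) ^ 3 * (H r + 64 * (bi * D r) + bi * E' r + B r) := by
  rw [OwL_eq]
  have hJ : (0 : ℝ) ≤ J := Nat.cast_nonneg J
  have b1 : (J : ℝ) + 1 ≤ ((J : ℝ) + 1) ^ 3 := by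
    have : (1 : ℝ) ≤ (J : ℝ) + 1 := by linarith
    calc (J : ℝ) + 1 = ((J : ℝ) + 1) ^ 1 := (pow_one _).symm
      _ ≤ ((J : ℝ) + 1) ^ 3 := pow_le_pow_right₀ this (by norm_num)
  have a1 := mul_le_mul_of_nonneg_right b1 hH
  have a2 := mul_le_mul_of_nonneg_right b1 hE
  have a3 := mul_le_mul_of_nonneg_right b1 hB
  have a4 : ((J : ℝ) + 1) ^ 3 * E' r ≤ ((J : ℝ) + 1) ^ 3 * (bi * E' r) := by
    refine mul_le_mul_of_nonneg_left ?_ (by positivity)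
    nlinarith
  linarith

section fix

variable {be : ℝ} {T e d : ℕ → ℤ → ℤ → Matrix κ κ ℝ}

/-- the variation matrix is below the square -/
theorem Fv_le (hb : 0 < be) (hT : H419.Wt T e d) (k : ℕ) (n x : ℤ) (v : κ → ℝ) :
    v ⬝ᵥ Fv be T d k n x *ᵥ v ≤ be⁻¹ * ((d k x n *ᵥ v) ⬝ᵥ (d k x n *ᵥ v)) := by
  refine H784.inv_quad_le hb (hT.d_symm k x n) ?_ v
  rw [add_sub_cancel_left]
  exact hT.ps _ _ _

open scoped Classical in
/-- **The fixed `x₀` theorem, plain numbers.** -/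
theorem fixBC_W (hb : 0 < be) (hb1 : be ≤ 1) {s q : ℝ} (hs : 0 < s) (hq0 : 0 ≤ q)
    (hT : H419.Wt T e d) (hTτ : ∀ k x m, ((2 : ℝ) • (1 : Matrix κ κ ℝ) - T k x m).PosSemidef)
    {N : ℕ} {b c : ℕ → ℤ → ℤ → κ → ℝ} {Pb Pc : ℕ → ℤ → ℤ → Prop}
    (hPb : ∀ k < N, ∀ w m, ¬ Pb k w m → ∀ x ∈ iv k m, b (k + 1) x w = b k x w)
    (hPc : ∀ k < N, ∀ w m, ¬ Pc k w m → ∀ x ∈ iv k m, c (k + 1) x w = c k x w)
    (cap : ∀ k ≤ N, ∀ n m, (q • (1 : Matrix (Ix k × κ) (Ix k × κ) ℝ) - CP (b k) k k n m).PosSemidef)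
    (cap1 : ∀ k < N, ∀ n m,
      (q • (1 : Matrix (Ix k × κ) (Ix k × κ) ℝ) - CP (b (k + 1)) k k n m).PosSemidef)
    {R₁ S₁ T₁ : ℤ} {cc : ℕ → ℤ} (hcc : Vale.Agent.P141.PL.H588.Pl cc) {C : ℝ} {J : ℕ}
    (hC : 2 * C ≤ 4 ^ J * s)
    (capc : ∀ k a n m, k ≤ a → a < N → (C • (1 : Matrix (Ix k × κ) (Ix k × κ) ℝ)
      - SD be T k (a + 1) n m * CP (c k) k (a + 1) n m * SD be T k (a + 1) n m).PosSemidef)
    (capc1 : ∀ k a n m, k ≤ a → a < N → (C • (1 : Matrix (Ix k × κ) (Ix k × κ) ℝ)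
      - SD be T k (a + 1) n m * CP (c (k + 1)) k (a + 1) n m * SD be T k (a + 1) n m).PosSemidef)
    {E EB : ℝ}
    (mb0 : mB N R₁ S₁ (b 0) ≤ EB)
    (mb1 : ∑ k ∈ Ico 0 N, mB N R₁ S₁ (rs (Pb k) k (b (k + 1))) ≤ EB)
    (hZB : ∑ k ∈ Ico 0 N, GW N R₁ S₁ T₁ (k + 1) (cc (k + 1)) (fun n n' m =>
      av (k + 1) n m fun x y => b (k + 1) x y ⬝ᵥ Fv be T d k n' x *ᵥ b (k + 1) x y) ≤ EB)
    (hBE : ∑ k ∈ Ico 0 N, GW N R₁ S₁ T₁ (k + 1) (cc (k + 1)) (fun n n' m =>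
      av (k + 1) n m fun x y => b (k + 1) x y ⬝ᵥ e k x n' *ᵥ b (k + 1) x y) ≤ EB)
    (eH : wS N (fun r => nmH N T₁ S₁ be T c r) ≤ E)
    (eD : wS N (fun r => be⁻¹ * nmD N T₁ S₁ d c r) ≤ E)
    (eE : wS N (fun r => be⁻¹ * nmE N T₁ S₁ e c r) ≤ E)
    (eB : wS N (fun r => nmB N T₁ S₁ be T Pc c r) ≤ E)
    (e1H : Wn N T₁ S₁ be T (c 1) 0 ≤ E)
    (e1D : be⁻¹ * ∑ k ∈ Ico 0 N, Dn N T₁ S₁ d (c (k + 1)) k ≤ E)
    (e1E : be⁻¹ * ∑ k ∈ Ico 0 N, En N T₁ S₁ e (c (k + 1)) k ≤ E)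
    (e1B : ∑ k ∈ Ico 0 N, Wn N T₁ S₁ be T (rs (Pc k) k (c (k + 1))) k ≤ E)
    (eX : ∑ k ∈ Ico 0 N, ∑ x ∈ iv N S₁, ∑ z ∈ iv N T₁,
      (if ∃ w, ix (k + 1) w = cc (k + 1) - ix (k + 1) x - ix (k + 1) z ∧ Pb k w (ix k x) then
        wE be T k (c (k + 1)) x z else 0) ≤ E) :
    ∑ k ∈ Ico 0 N, GW N R₁ S₁ T₁ (k + 1) (cc (k + 1)) (fun n n' m =>
      (CP (b (k + 1)) (k + 1) (k + 1) n m * (sk (k + 1) κ *
        PG be s T (c (k + 1)) (k + 1) (k + 1) n' m * sk (k + 1) κ)).trace)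
      ≤ 18 * (120000 * ((J : ℝ) + 1) ^ 3) * (√(s * E * (q * EB)) + q * E) := by
  have hp := hT.ps
  have hE : 0 ≤ E := (Wn_nonneg hb hp _ _ _ _ _).trans e1H
  have hEB : 0 ≤ EB := (mB_nonneg _ _ _ _).trans mb0
  have hbi : 1 ≤ be⁻¹ := (one_le_inv₀ hb).2 hb1
  have hbi0 : 0 ≤ be⁻¹ := by linarith
  rcases Nat.eq_zero_or_pos N with hN0 | hN
  · subst hN0
    rw [Ico_self, sum_empty]
    positivity
  have hJ1 : (1 : ℝ) ≤ ((J : ℝ) + 1) ^ 3 := one_le_pow₀ (by linarith [Nat.cast_nonneg (α := ℝ) J])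
  set A3 : ℝ := ((J : ℝ) + 1) ^ 3 with hA3
  have hA0 : 0 ≤ A3 := by linarith
  -- the parameter of the own numbers
  set μ : ℝ := s⁻¹ with hμdef
  have hμ : 0 < μ := inv_pos.2 hs
  have hsμ : s = (μ / 4 ^ 0)⁻¹ := by
    rw [hμdef, pow_zero, div_one, inv_inv]
  have hCμ : μ / 4 ^ J * (2 * C) ≤ 1 := by
    rw [hμdef, div_mul_eq_mul_div, div_le_one (by positivity), inv_mul_le_iff₀ hs]
    linarith [mul_comm s ((4 : ℝ) ^ J)]
  have h2 : (0 : ℝ) ≤ 2 := by norm_num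
  -- the numbers
  have nH := nmH_nonneg hb hp N T₁ S₁ c
  have nD := nmD_nonneg (d := d) N T₁ S₁ c
  have nE := nmE_nonneg hT.pe N T₁ S₁ c
  have nB := nmB_nonneg hb hp N T₁ S₁ Pc c
  have nH1 := nmH_nonneg hb hp N T₁ S₁ (c1 N c)
  have nD1 := nmD_nonneg (d := d) N T₁ S₁ (c1 N c)
  have nE1 := nmE_nonneg hT.pe N T₁ S₁ (c1 N c)
  have nB1 := nmB_nonneg hb hp N T₁ S₁ (P1 N Pc) (c1 N c)
  have ow : ∀ r, OwL J (nmH N T₁ S₁ be T c) (fun r => 2 * be⁻¹ * nmD N T₁ S₁ d c r)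
      (fun r => 2 * nmE N T₁ S₁ e c r) (fun r => ((J : ℝ) + 1) * nmB N T₁ S₁ be T Pc c r) r ≤
      A3 * (nmH N T₁ S₁ be T c r + 64 * (be⁻¹ * nmD N T₁ S₁ d c r)
        + be⁻¹ * nmE N T₁ S₁ e c r + nmB N T₁ S₁ be T Pc c r) := fun r =>
    OwL_one hbi (nH r) (nD r) (nE r) (nB r)
  have wow : wS N (OwL J (nmH N T₁ S₁ be T c) (fun r => 2 * be⁻¹ * nmD N T₁ S₁ d c r)
      (fun r => 2 * nmE N T₁ S₁ e c r) (fun r => ((J : ℝ) + 1) * nmB N T₁ S₁ be T Pc c r)) ≤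
      A3 * (67 * E) := by
    refine (wS_mono ow).trans ?_
    rw [wS_smul, wS_add, wS_add, wS_add, wS_smul N 64]
    exact mul_le_mul_of_nonneg_left (by linarith) hA0
  have ow0 : OwL J (nmH N T₁ S₁ be T c) (fun r => 2 * be⁻¹ * nmD N T₁ S₁ d c r)
      (fun r => 2 * nmE N T₁ S₁ e c r) (fun r => ((J : ℝ) + 1) * nmB N T₁ S₁ be T Pc c r) 0 ≤
      A3 * (67 * E) := by
    refine (ow 0).trans (mul_le_mul_of_nonneg_left ?_ hA0)
    have t1 := (wS_zero_le (N := N) (X := fun r => nmH N T₁ S₁ be T c r) nH).trans eH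
    have t2 := (wS_zero_le (N := N) (X := fun r => be⁻¹ * nmD N T₁ S₁ d c r) fun r =>
      mul_nonneg hbi0 (nD r)).trans eD
    have t3 := (wS_zero_le (N := N) (X := fun r => be⁻¹ * nmE N T₁ S₁ e c r) fun r =>
      mul_nonneg hbi0 (nE r)).trans eE
    have t4 := (wS_zero_le (N := N) (X := fun r => nmB N T₁ S₁ be T Pc c r) nB).trans eB
    linarith
  have ow1 : OwL J (nmH N T₁ S₁ be T (c1 N c)) (fun r => 2 * be⁻¹ * nmD N T₁ S₁ d (c1 N c) r)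
      (fun r => 2 * nmE N T₁ S₁ e (c1 N c) r)
      (fun r => ((J : ℝ) + 1) * nmB N T₁ S₁ be T (P1 N Pc) (c1 N c) r) 0 ≤ A3 * (67 * E) := by
    refine (OwL_one hbi (nH1 0) (nD1 0) (nE1 0) (nB1 0)).trans
      (mul_le_mul_of_nonneg_left ?_ hA0)
    have t1 : nmH N T₁ S₁ be T (c1 N c) 0 ≤ E := by
      rw [nmH_c1 hN]
      exact e1H
    have t2 : be⁻¹ * nmD N T₁ S₁ d (c1 N c) 0 ≤ E := by
      rw [nmD_c1]
      exact e1D
    have t3 : be⁻¹ * nmE N T₁ S₁ e (c1 N c) 0 ≤ E := by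
      rw [nmE_c1]
      exact e1E
    have t4 : nmB N T₁ S₁ be T (P1 N Pc) (c1 N c) 0 ≤ E :=
      (nmB_c1 hb hp N T₁ S₁ Pc c).trans e1B
    linarith
  have hsE : 0 ≤ A3 * (s * E) := mul_nonneg hA0 (mul_nonneg hs.le hE)
  -- plane energy
  have hTV : TV 0 N T₁ S₁ (fun k => PG be s T (c k) k) ≤ 120000 * A3 * (s * E) := by
    have h := TV_real hb hT h2 hTτ hμ (J := J) T₁ S₁ hPc hCμ capc (Nat.zero_le J) hsμ
    refine h.trans ?_
    have w2 : wS N (fun r => 2 * nmD N T₁ S₁ d c r + 2 * 2 * nmE N T₁ S₁ e c r) ≤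
        6 * (be * E) := by
      have e1 : wS N (fun r => 2 * nmD N T₁ S₁ d c r + 2 * 2 * nmE N T₁ S₁ e c r) =
          be * (2 * wS N (fun r => be⁻¹ * nmD N T₁ S₁ d c r) +
            4 * wS N (fun r => be⁻¹ * nmE N T₁ S₁ e c r)) := by
        rw [wS_add, wS_smul N be⁻¹, wS_smul N be⁻¹, wS_smul N 2, wS_smul N (2 * 2)]
        field_simp
        ring
      rw [e1]
      have := mul_le_mul_of_nonneg_left (show 2 * wS N (fun r => be⁻¹ * nmD N T₁ S₁ d c r) +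
            4 * wS N (fun r => be⁻¹ * nmE N T₁ S₁ e c r) ≤ 6 * E by linarith) hb.le
      linarith
    have w3 : 368 * (2 * s) * (2 + 2 * be⁻¹) * wS N (fun r => 2 * nmD N T₁ S₁ d c r
        + 2 * 2 * nmE N T₁ S₁ e c r) ≤ 17664 * (A3 * (s * E)) := by
      have a1 := mul_le_mul_of_nonneg_left w2
        (show 0 ≤ 368 * (2 * s) * (2 + 2 * be⁻¹) by positivity)
      refine a1.trans ?_
      have a2 : 368 * (2 * s) * (2 + 2 * be⁻¹) * (6 * (be * E)) =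
          8832 * (s * E) * (be + 1) := by
        field_simp
        ring
      rw [a2]
      have a3 : 8832 * (s * E) * (be + 1) ≤ 8832 * (s * E) * 2 :=
        mul_le_mul_of_nonneg_left (by linarith)
          (mul_nonneg (by norm_num) (mul_nonneg hs.le hE))
      have a4 : s * E ≤ A3 * (s * E) := le_mul_of_one_le_left (mul_nonneg hs.le hE) hJ1
      linarith
    have w4 : 368 * (2 : ℝ) ^ 2 * s * wS N (OwL J (nmH N T₁ S₁ be T c)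
        (fun r => 2 * be⁻¹ * nmD N T₁ S₁ d c r)
        (fun r => 2 * nmE N T₁ S₁ e c r) (fun r => ((J : ℝ) + 1) * nmB N T₁ S₁ be T Pc c r)) ≤
        98624 * (A3 * (s * E)) := by
      have a1 := mul_le_mul_of_nonneg_left wow (show 0 ≤ 368 * (2 : ℝ) ^ 2 * s by positivity)
      refine a1.trans (le_of_eq ?_)
      ring
    linarith
  have hOM : ∑ k ∈ Ico 0 N, (4 : ℝ) ^ (k + 1) * ∑ m ∈ iv (N - (k + 1)) S₁,
      ∑ n ∈ iv (N - (k + 1)) T₁, gp s (sk (k + 1) κ) (SD be T (k + 1) (k + 1) n m *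
        CP (c (k + 1)) (k + 1) (k + 1) n m * SD be T (k + 1) (k + 1) n m) ≤
        120000 * A3 * (s * E) := by
    refine (OM_real hb hT h2 hTτ hμ (J := J) T₁ S₁ hPc hCμ capc (Nat.zero_le J) hsμ).trans ?_
    have := mul_le_mul_of_nonneg_left ow0 (show 0 ≤ 2 * s by positivity)
    linarith
  have hOO : ∑ k ∈ Ico 0 N, (4 : ℝ) ^ (k + 1) * ∑ m ∈ iv (N - (k + 1)) S₁,
      ∑ n ∈ iv (N - (k + 1)) T₁, mh (fun h => dls s
        (SD be T k (k + 1) n h * CP (c (k + 1)) k k (2 * n) h * SD be T k (k + 1) n h)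
        (SD be T k (k + 1) n h * CP (c (k + 1)) k k (2 * n + 1) h * SD be T k (k + 1) n h)) m
        ≤ 120000 * A3 * (s * E) := by
    refine (OO_real hb hT h2 hTτ hμ (J := J) T₁ S₁ hPc hCμ capc1 (Nat.zero_le J) hsμ).trans ?_
    have := mul_le_mul_of_nonneg_left ow1 (show 0 ≤ 4 * s by positivity)
    linarith
  have hA3E : 0 ≤ A3 * E := mul_nonneg hA0 hE
  have hEA : E ≤ A3 * E := le_mul_of_one_le_left hE hJ1
  have hZM : ∑ k ∈ Ico 0 N, ∑ x ∈ iv N S₁, ∑ z ∈ iv N T₁,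
      c (k + 1) x z ⬝ᵥ Fv be T d k (ix (k + 1) z) x *ᵥ c (k + 1) x z ≤
        120000 * A3 / 2 * E := by
    have h : ∑ k ∈ Ico 0 N, ∑ x ∈ iv N S₁, ∑ z ∈ iv N T₁,
        c (k + 1) x z ⬝ᵥ Fv be T d k (ix (k + 1) z) x *ᵥ c (k + 1) x z ≤
        be⁻¹ * ∑ k ∈ Ico 0 N, Dn N T₁ S₁ d (c (k + 1)) k := by
      unfold Dn
      simp only [mul_sum]
      exact sum_le_sum fun k _ => sum_le_sum fun x _ => sum_le_sum fun z _ => Fv_le hb hT _ _ _ _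
    linarith
  have hEM : ∑ k ∈ Ico 0 N, ∑ x ∈ iv N S₁, ∑ z ∈ iv N T₁,
      c (k + 1) x z ⬝ᵥ e k x (ix (k + 1) z) *ᵥ c (k + 1) x z ≤ 120000 * A3 / 2 * E := by
    have h : ∑ k ∈ Ico 0 N, ∑ x ∈ iv N S₁, ∑ z ∈ iv N T₁,
        c (k + 1) x z ⬝ᵥ e k x (ix (k + 1) z) *ᵥ c (k + 1) x z ≤
        be⁻¹ * ∑ k ∈ Ico 0 N, En N T₁ S₁ e (c (k + 1)) k := by
      have h0 : 0 ≤ ∑ k ∈ Ico 0 N, En N T₁ S₁ e (c (k + 1)) k :=
        sum_nonneg fun k _ => En_nonneg hT.pe _ _ _ _ _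
      exact le_mul_of_one_le_left h0 hbi
    linarith
  have hX : ∑ k ∈ Ico 0 N, GW N R₁ S₁ T₁ (k + 1) (cc (k + 1)) (fun n n' m =>
      mh (fun h => xk be s q 2 T Pb Pc b c k n n' h) m) ≤ 120000 * A3 * (q * E) := by
    refine (X_le hb hs hq0 h2 hp hTτ cap1 R₁ S₁ T₁ cc).trans ?_
    have h := add_le_add eX e1B
    have h3 := mul_le_mul_of_nonneg_left h (show 0 ≤ q * 2 by positivity)
    have h4 : q * E ≤ A3 * (q * E) := le_mul_of_one_le_left (mul_nonneg hq0 hE) hJ1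
    have h5 : 0 ≤ q * E := mul_nonneg hq0 hE
    refine le_trans h3 ?_
    linarith
  have h1EB : EB ≤ 120000 * A3 * EB := le_mul_of_one_le_left hEB (by linarith)
  exact fixBC hb hs hq0 h2 le_rfl hT hTτ hPb hPc cap cap1 hcc (a := 120000 * A3) (by linarith) hE
    mb0 mb1 hTV hOM hOO hZM hEM (hZB.trans h1EB) (hBE.trans h1EB) hX

end fix

end

end Vale.Agent.P141.H581.FixBC
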