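import Vale.Agent.P141.H581.TVCP
import Vale.Agent.P141.H457.NumBC
import Vale.Agent.P141.H912.TVpgL
import Vale.Agent.P141.H636.TopBC

/-!
# P141, line (A), TI, the pair `(B~, C~)` at one `x₀`: the fixed `x₀` theorem

`fixBC` : the plane theorem of `H457.wpair`, every loss as a sum over points.
`fixBC_W` : the own numbers and the plane energy of the second slot from two families
`H912.TVpgL.WFamL` (the path `c`, and the path `k ↦ c (k + 1)`).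
-/

set_option linter.unusedSectionVars false

namespace Vale.Agent.P141.H581.FixBC

open Finset Matrix
open Vale.Agent.P075 (Ix val bd rad res phi exists_sq psd_isSymm psd_conj_symm trace_mul_nonneg)
open Vale.Agent.P141.PL (iv ix mem_iv)
open Vale.Agent.P141.PL.H103 Vale.Agent.P141.H103
open Vale.Agent.P141.H419.PairB (WPair mvM mvD gnV)
open Vale.Agent.P141.H585.PairO (gp mh mh_nonneg)
open Vale.Agent.P141.H585.PairCh (dls)
open Vale.Agent.P141.H389 (TV)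
open Vale.Agent.P141.H784 (av)
open Vale.Agent.P141.H874 Vale.Agent.P141.H457 Vale.Agent.P141.H581.TVCP

noncomputable section

variable {κ : Type*} [Fintype κ] [DecidableEq κ]

section fix

variable {be : ℝ} {T e d : ℕ → ℤ → ℤ → Matrix κ κ ℝ}

/-- **The fixed `x₀` theorem.** -/
theorem fixBC (hb : 0 < be) {s q τ : ℝ} (hs : 0 < s) (hq0 : 0 ≤ q) (hτ0 : 0 ≤ τ) (hτ2 : τ ≤ 2)
    (hT : H419.Wt T e d) (hTτ : ∀ k x m, (τ • (1 : Matrix κ κ ℝ) - T k x m).PosSemidef)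
    {N : ℕ} {b c : ℕ → ℤ → ℤ → κ → ℝ} {Pb Pc : ℕ → ℤ → ℤ → Prop}
    (hPb : ∀ k < N, ∀ w m, ¬ Pb k w m → ∀ x ∈ iv k m, b (k + 1) x w = b k x w)
    (hPc : ∀ k < N, ∀ w m, ¬ Pc k w m → ∀ x ∈ iv k m, c (k + 1) x w = c k x w)
    (cap : ∀ k ≤ N, ∀ n m, (q • (1 : Matrix (Ix k × κ) (Ix k × κ) ℝ) - CP (b k) k k n m).PosSemidef)
    (cap1 : ∀ k < N, ∀ n m,
      (q • (1 : Matrix (Ix k × κ) (Ix k × κ) ℝ) - CP (b (k + 1)) k k n m).PosSemidef)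
    {R₁ S₁ T₁ : ℤ} {cc : ℕ → ℤ} (hcc : Vale.Agent.P141.PL.H588.Pl cc) {a E EB : ℝ} (ha : 308 ≤ a) (hE : 0 ≤ E)
    (mb0 : mB N R₁ S₁ (b 0) ≤ EB)
    (mb1 : ∑ k ∈ Ico 0 N, mB N R₁ S₁ (rs (Pb k) k (b (k + 1))) ≤ EB)
    (hTV : TV 0 N T₁ S₁ (fun k => PG be s T (c k) k) ≤ a * (s * E))
    (hOM : ∑ k ∈ Ico 0 N, (4 : ℝ) ^ (k + 1) * ∑ m ∈ iv (N - (k + 1)) S₁,
      ∑ n ∈ iv (N - (k + 1)) T₁, gp s (sk (k + 1) κ) (SD be T (k + 1) (k + 1) n m *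
        CP (c (k + 1)) (k + 1) (k + 1) n m * SD be T (k + 1) (k + 1) n m) ≤ a * (s * E))
    (hOO : ∑ k ∈ Ico 0 N, (4 : ℝ) ^ (k + 1) * ∑ m ∈ iv (N - (k + 1)) S₁,
      ∑ n ∈ iv (N - (k + 1)) T₁, mh (fun h => dls s
        (SD be T k (k + 1) n h * CP (c (k + 1)) k k (2 * n) h * SD be T k (k + 1) n h)
        (SD be T k (k + 1) n h * CP (c (k + 1)) k k (2 * n + 1) h * SD be T k (k + 1) n h)) m
        ≤ a * (s * E))
    (hZM : ∑ k ∈ Ico 0 N, ∑ x ∈ iv N S₁, ∑ z ∈ iv N T₁,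
      c (k + 1) x z ⬝ᵥ Fv be T d k (ix (k + 1) z) x *ᵥ c (k + 1) x z ≤ a / 2 * E)
    (hEM : ∑ k ∈ Ico 0 N, ∑ x ∈ iv N S₁, ∑ z ∈ iv N T₁,
      c (k + 1) x z ⬝ᵥ e k x (ix (k + 1) z) *ᵥ c (k + 1) x z ≤ a / 2 * E)
    (hZB : ∑ k ∈ Ico 0 N, GW N R₁ S₁ T₁ (k + 1) (cc (k + 1)) (fun n n' m =>
      av (k + 1) n m fun x y => b (k + 1) x y ⬝ᵥ Fv be T d k n' x *ᵥ b (k + 1) x y) ≤ a * EB)
    (hBE : ∑ k ∈ Ico 0 N, GW N R₁ S₁ T₁ (k + 1) (cc (k + 1)) (fun n n' m =>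
      av (k + 1) n m fun x y => b (k + 1) x y ⬝ᵥ e k x n' *ᵥ b (k + 1) x y) ≤ a * EB)
    (hX : ∑ k ∈ Ico 0 N, GW N R₁ S₁ T₁ (k + 1) (cc (k + 1)) (fun n n' m =>
      mh (fun h => xk be s q τ T Pb Pc b c k n n' h) m) ≤ a * (q * E)) :
    ∑ k ∈ Ico 0 N, GW N R₁ S₁ T₁ (k + 1) (cc (k + 1)) (fun n n' m =>
      (CP (b (k + 1)) (k + 1) (k + 1) n m * (sk (k + 1) κ *
        PG be s T (c (k + 1)) (k + 1) (k + 1) n' m * sk (k + 1) κ)).trace)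
      ≤ 18 * a * (√(s * E * (q * EB)) + q * E) := by
  have hp := hT.ps
  have W := wpair hb hs hq0 hτ0 hT hTτ (N := N) (b := b) (c := c) (Pb := Pb) (Pc := Pc) hPb hPc
    (fun k hk => cap k hk.le) cap1 (cap N le_rfl)
  have hEB : 0 ≤ EB := (mB_nonneg _ _ _ _).trans mb0
  -- the caps on coarser outer cells
  have up : ∀ (k : ℕ) (f : ℤ → ℤ → κ → ℝ), (∀ n m, (q • (1 : Matrix (Ix k × κ) (Ix k × κ) ℝ) -
      CP f k k n m).PosSemidef) → ∀ a, k ≤ a → ∀ n m,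
      (q • (1 : Matrix (Ix k × κ) (Ix k × κ) ℝ) - CP f k a n m).PosSemidef := by
    intro k f h a hka n m
    obtain ⟨l, rfl⟩ := Nat.exists_eq_add_of_le hka
    exact CP_cap_up h l n m
  have hTP : TV 0 N R₁ S₁ (fun k => CP (b k) k) ≤ a * (q * EB) := by
    have h := TV_CP (N := N) (R := R₁) (S := S₁) hq0 (b := b) (P := Pb) hPb
      (fun k a' h1 h2 n m => up k (b k) (cap k (h1.trans h2)) a' h1 n m)
      (fun k a' h0 h1 h2 n m => up k (b (k + 1)) (cap1 k h0) a' h1 n m) mb0 mb1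
    exact h.trans (mul_le_mul_of_nonneg_right ha (mul_nonneg hq0 hEB))
  -- the second slot: plain sums
  have z1 : ∑ k ∈ Ico 0 N, (4 : ℝ) ^ (k + 1) * ∑ m ∈ iv (N - (k + 1)) S₁,
      ∑ n ∈ iv (N - (k + 1)) T₁, mh (fun h => mvM (ι := fun k => Ix k × κ)
        (fun k n h => SD be T k (k + 1) n h) (fun k n h => TD d k k n h)
        (fun k n h => CP (c (k + 1)) k k (2 * n) h)
        (fun k n h => CP (c (k + 1)) k k (2 * n + 1) h) k n h) m ≤ a * E := by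
    have e1 : ∀ k ∈ Ico 0 N, (4 : ℝ) ^ (k + 1) * ∑ m ∈ iv (N - (k + 1)) S₁,
      ∑ n ∈ iv (N - (k + 1)) T₁, mh (fun h => mvM (ι := fun k => Ix k × κ)
        (fun k n h => SD be T k (k + 1) n h) (fun k n h => TD d k k n h)
        (fun k n h => CP (c (k + 1)) k k (2 * n) h)
        (fun k n h => CP (c (k + 1)) k k (2 * n + 1) h) k n h) m =
        2 * ∑ x ∈ iv N S₁, ∑ z ∈ iv N T₁,
          c (k + 1) x z ⬝ᵥ Fv be T d k (ix (k + 1) z) x *ᵥ c (k + 1) x z := by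
      intro k hk
      have hk1 : k + 1 ≤ N := by have := mem_Ico.1 hk; omega
      simp only [zm_av hb hp c k]
      rw [← sum_av hk1 S₁ T₁ fun x z n => c (k + 1) x z ⬝ᵥ Fv be T d k n x *ᵥ c (k + 1) x z]
      simp only [← mul_sum]
      ring
    rw [sum_congr rfl e1, ← mul_sum]
    linarith
  have z2 : ∑ k ∈ Ico 0 N, (4 : ℝ) ^ (k + 1) * ∑ m ∈ iv (N - (k + 1)) S₁,
      ∑ n ∈ iv (N - (k + 1)) T₁, mh (fun h => mvD (ι := fun k => Ix k × κ)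
        (fun k n h => TD e k k n h) (fun k n h => CP (c (k + 1)) k k (2 * n) h)
        (fun k n h => CP (c (k + 1)) k k (2 * n + 1) h) k n h) m ≤ a * E := by
    have e1 : ∀ k ∈ Ico 0 N, (4 : ℝ) ^ (k + 1) * ∑ m ∈ iv (N - (k + 1)) S₁,
      ∑ n ∈ iv (N - (k + 1)) T₁, mh (fun h => mvD (ι := fun k => Ix k × κ)
        (fun k n h => TD e k k n h) (fun k n h => CP (c (k + 1)) k k (2 * n) h)
        (fun k n h => CP (c (k + 1)) k k (2 * n + 1) h) k n h) m =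
        2 * ∑ x ∈ iv N S₁, ∑ z ∈ iv N T₁,
          c (k + 1) x z ⬝ᵥ e k x (ix (k + 1) z) *ᵥ c (k + 1) x z := by
      intro k hk
      have hk1 : k + 1 ≤ N := by have := mem_Ico.1 hk; omega
      simp only [em_av c k]
      rw [← sum_av hk1 S₁ T₁ fun x z n => c (k + 1) x z ⬝ᵥ e k x n *ᵥ c (k + 1) x z]
      simp only [← mul_sum]
      ring
    rw [sum_congr rfl e1, ← mul_sum]
    linarith
  have z3 : ∑ k ∈ Ico 0 N, GW N R₁ S₁ T₁ (k + 1) (cc (k + 1)) (fun n n' m =>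
      mh (fun h => (CP (b (k + 1)) k (k + 1) n h * (TD d k k n' h * ((SD be T k (k + 1) n' h)⁻¹ *
        (SD be T k (k + 1) n' h)⁻¹) * TD d k k n' h)).trace) m) ≤ a * EB := by
    simp only [zb_av hb hp]
    exact hZB
  have z4 : ∑ k ∈ Ico 0 N, GW N R₁ S₁ T₁ (k + 1) (cc (k + 1)) (fun n n' m =>
      mh (fun h => (CP (b (k + 1)) k (k + 1) n h * TD e k k n' h).trace) m) ≤ a * EB := by
    simp only [eb_av]
    exact hBE
  have key := fun (lam kap : ℝ) (hl : 0 < lam) (hk : 0 < kap) =>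
    W.total hs hq0 hτ0 hl hk (Nat.zero_le N) hcc hOM hOO z1 z2 z3 z4 hX
  have hTP0 : 0 ≤ TV 0 N R₁ S₁ (fun k => CP (b k) k) :=
    H389.TV_nonneg fun k a n m => CP_symm _ _ _ _ _
  have fin := H636.Top.fix_end hs hq0 hτ0 hτ2 (by linarith) hE hEB
    hTP0 key hTP hTV le_rfl le_rfl le_rfl le_rfl le_rfl le_rfl le_rfl
  exact fin

end fix

end

end Vale.Agent.P141.H581.FixBC
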