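import Vale.Agent.P141.H581.FixBW
import Vale.Agent.P141.H74.CutBC
import Vale.Agent.P141.H652.NumR
import Vale.Agent.P141.H652.NumQ
import Vale.Agent.P141.H302.BornU
import Vale.Agent.P141.H548.LagU
import Vale.Agent.P141.H989.CrB3
import Vale.Agent.P141.H329.WinS
import Vale.Agent.P141.H222.NumOf

/-!
# P141, line (A), TI, the pair `(Bg, Cg)` at class data

`numBC : H886.NumBC 2160000 2`, `lBCg : H408.LBCg`.
-/

set_option linter.unusedSectionVars false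

namespace Vale.Agent.P141.H581.Num

open Finset Matrix
open Vale.Agent.P075 (Ix)
open Vale.Agent.P141.PL (Pt iv ix cx mem_iv)
open Vale.Agent.P141.PL.H315 (Tri)
open Vale.Agent.P141.H48 (US ES BSl)
open Vale.Agent.P141.H305 (ClsM kapM)
open Vale.Agent.P141.H401 (StQ FibU FibP cb qB)
open Vale.Agent.P141.H652 (Th eb ah PbS dB payS)
open Vale.Agent.P141.H677 (KT rt cP)
open Vale.Agent.P141.H103 (GW)
open Vale.Agent.P141.H784 (av)
open Vale.Agent.P141.H457 (Fv rs PG SD)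
open Vale.Agent.P141.H874
open Vale.Agent.P141.H808 (cS thS)
open Vale.Agent.P141.H302 (bN tS Pr pr_not pr_ch)
open Vale.Agent.P141.H548 (vN oN chg kinds)
open Vale.Agent.P141.H419.WFamR (Wn Dn En nmH nmD nmE nmB)
open Vale.Agent.P141.H912 (wS wS_mono wS_nonneg)
open Vale.Agent.P141.H736 (wE wE_nonneg)
open Vale.Agent.P141.H505.Sk1 (eT Ch)
open Vale.Agent.P141.H408
open Vale.Agent.P141.H886

noncomputable section

open scoped Classical

set_option linter.unusedVariables false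

/-- one lag -/
theorem sumU_at {σ : ℝ} {f : ℕ → NumF} (H : SumL σ f) (q : ℕ) : SumU σ (f q) := by
  refine PairU.map (M := 1) zero_le_one H ?_
  intro ι _ _ p n ez F1 F2 F3 o K x s r U g u v Q1 Q2 Q3 X ht hs hr hez hX h
  rw [one_mul]
  exact h q

/-- the marks of the first slot -/
def mk : H989.CrB.MarkF := fun ι _ _ p n ez F1 F2 F3 o K x s r U g u v Q1 Q2 Q3 x0 k w h =>
  PbS p s r U K u F3 Q3 x0 k w h

/-- the number of the second slot -/
def fE : NumF := fun ι _ _ p n ez F1 F2 F3 o K x s r U g u v Q1 Q2 Q3 x0 =>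
  ∑ l ∈ range (K + 1), (3 / 4 : ℝ) ^ l * vN 0 l ι p n ez F1 F2 F3 o K x s r U g u v Q1 Q2 Q3 x0 +
  ∑ l ∈ range (K + 1), (3 / 4 : ℝ) ^ l *
    bN (l + 1) ι p n ez F1 F2 F3 o K x s r U g u v Q1 Q2 Q3 x0 +
  oN 0 ι p n ez F1 F2 F3 o K x s r U g u v Q1 Q2 Q3 x0 +
  vN 1 0 ι p n ez F1 F2 F3 o K x s r U g u v Q1 Q2 Q3 x0 +
  bN 0 ι p n ez F1 F2 F3 o K x s r U g u v Q1 Q2 Q3 x0 +
  H989.CrB.fCRB mk ι p n ez F1 F2 F3 o K x s r U g u v Q1 Q2 Q3 x0

/-- the number of the first slot -/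
def fB : NumF := fun ι _ _ p n ez F1 F2 F3 o K x s r U g u v Q1 Q2 Q3 x0 =>
  dB p s r U K x u F3 Q3 x0 +
    payS (beI p r) (p.lam s r) o K (cx K x) u (fun k => H652.bS p s r U K u F3 Q3 x0 k) x0

theorem sumU_mk : SumU 1 (H989.CrB.fCRB mk) :=
  H989.CrB.sumU_CRB fun ι _ _ p n ez F1 F2 F3 o K x s r U g u v Q1 Q2 Q3 x0 k w h _ _ _ _ hm =>
    H652.PbS_qB hm

theorem sumU_E : SumU 1 fE :=
  (((((H548.sumU_v (Nat.zero_le 1)).add H302.sumU_b1).add (sumU_at H548.sumL_o 0)).add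
    (sumU_at (H548.sumL_v le_rfl) 0)).add H302.sumU_b0).add sumU_mk

theorem sumU_B : SumU (-1) fB := H652.EBU

section pt

variable {ι : Type} [Fintype ι] [DecidableEq ι]

/-- variation of the weight -/
abbrev tA (p : H401.Num) (s r : ℝ) (o : ℤ) (K : ℕ) (x : Pt) (u : ℤ → ℤ → ι → ℝ) (x0 : ℤ) :
    ℕ → ℤ → ℤ → Matrix ι ι ℝ :=
  fun k x1 m => ah (p.lam s r) K (cx K x).2.1 (KT (p.lam s r) u x1) (o - 2) x0 x1 k m

/-- drift of the weight -/
abbrev tE (p : H401.Num) (s r : ℝ) (o : ℤ) (K : ℕ) (x : Pt) (u : ℤ → ℤ → ι → ℝ) (x0 : ℤ) :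
    ℕ → ℤ → ℤ → Matrix ι ι ℝ :=
  fun k x1 m => eb (p.lam s r) K (cx K x).2.1 (KT (p.lam s r) u x1) (o - 2) x0 x1 (k + 1) m

variable {p : H401.Num} {s r ez : ℝ} {o : ℤ} {K : ℕ} {x : Pt} {U : Tri} {u v : ℤ → ℤ → ι → ℝ}
  {F2 : ℕ → Pt → ℝ} {x0 : ℤ}

theorem be_pos (ht : 0 < p.t) (hr : 1 ≤ r) : 0 < beI p r :=
  Real.rpow_pos_of_pos (div_pos ht (by linarith)) _

theorem wt (ht : 0 < p.t) (hs : 0 < s) (hr : 1 ≤ r) :
    H419.Wt (tS p s r o K x u x0) (tE p s r o K x u x0) (tA p s r o K x u x0) :=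
  H652.wt_Th (fun x1 => H677.tr_T (H401.Num.lam_pos (p := p) ht hs hr) K u x1) (cx K x).2.1
    (o - 2) x0

theorem tS_two (ht : 0 < p.t) (hs : 0 < s) (hr : 1 ≤ r) (k : ℕ) (x1 m : ℤ) :
    ((2 : ℝ) • (1 : Matrix ι ι ℝ) - tS p s r o K x u x0 k x1 m).PosSemidef :=
  H652.Th_le_two (H677.tr_T (H401.Num.lam_pos (p := p) ht hs hr) K u x1) (o - 2) x0 x1 k m

theorem kinds_nn (ht : 0 < p.t) (hs : 0 < s) (hr : 1 ≤ r) (a : ℕ) (x1 z : ℤ) (w : ι → ℝ) :
    0 ≤ kinds p s r o K x u x0 a x1 z w := by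
  unfold H548.kinds
  have h1 := H548.zm_nonneg ht hs hr o K x u x0 a x1 z w
  have h2 := H548.ze_nonneg ht hs hr o K x u x0 a x1 z w
  have h3 := H548.zd_nonneg ht hs hr o K x u x0 a x1 z w
  have h4 := H548.zq_nonneg ht hs hr o K x u x0 a x1 z w
  linarith

/-- both prices of a scale -/
theorem De_le (ht : 0 < p.t) (hs : 0 < s) (hr : 1 ≤ r) (f : ℤ → ℤ → ι → ℝ) (a : ℕ) :
    (beI p r)⁻¹ * Dn K (cx K x).2.2 (cx K x).1 (tA p s r o K x u x0) f a +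
      (beI p r)⁻¹ * En K (cx K x).2.2 (cx K x).1 (tE p s r o K x u x0) f a ≤
    ∑ x1 ∈ iv K (cx K x).1, ∑ z ∈ iv K (cx K x).2.2,
      (chg p s r o K x u x0 a x1 z (f x1 z) + kinds p s r o K x u x0 a x1 z (f x1 z)) := by
  unfold H419.WFamR.Dn H419.WFamR.En
  rw [mul_sum, mul_sum, ← sum_add_distrib]
  refine sum_le_sum fun x1 _ => ?_
  rw [mul_sum, mul_sum, ← sum_add_distrib]
  refine sum_le_sum fun z _ => ?_
  have h1 := H548.raw_le ht hs hr o K x u x0 a x1 z (f x1 z)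
  have h2 := kinds_nn (o := o) (K := K) (x := x) (u := u) (x0 := x0) ht hs hr a x1 z (f x1 z)
  linarith

theorem D_le (ht : 0 < p.t) (hs : 0 < s) (hr : 1 ≤ r) (f : ℤ → ℤ → ι → ℝ) (a : ℕ) :
    (beI p r)⁻¹ * Dn K (cx K x).2.2 (cx K x).1 (tA p s r o K x u x0) f a ≤
    ∑ x1 ∈ iv K (cx K x).1, ∑ z ∈ iv K (cx K x).2.2,
      (chg p s r o K x u x0 a x1 z (f x1 z) + kinds p s r o K x u x0 a x1 z (f x1 z)) := by
  have h := De_le (o := o) (K := K) (x := x) (u := u) (x0 := x0) ht hs hr f a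
  have h1 := mul_nonneg (inv_pos.2 (be_pos (p := p) (r := r) ht hr)).le
    (H419.WFamR.En_nonneg (wt (o := o) (K := K) (x := x) (u := u) (x0 := x0) ht hs hr).pe K
      (cx K x).2.2 (cx K x).1 f a)
  linarith

theorem E_le (ht : 0 < p.t) (hs : 0 < s) (hr : 1 ≤ r) (f : ℤ → ℤ → ι → ℝ) (a : ℕ) :
    (beI p r)⁻¹ * En K (cx K x).2.2 (cx K x).1 (tE p s r o K x u x0) f a ≤
    ∑ x1 ∈ iv K (cx K x).1, ∑ z ∈ iv K (cx K x).2.2,
      (chg p s r o K x u x0 a x1 z (f x1 z) + kinds p s r o K x u x0 a x1 z (f x1 z)) := by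
  have h := De_le (o := o) (K := K) (x := x) (u := u) (x0 := x0) ht hs hr f a
  have h1 := mul_nonneg (inv_pos.2 (be_pos (p := p) (r := r) ht hr)).le
    (H419.WFamR.Dn_nonneg (d := tA p s r o K x u x0) K (cx K x).2.2 (cx K x).1 f a)
  linarith

end pt

/-- **The numbers of the pair `(Bg, Cg)` at class data.** -/
theorem numBC : NumBC 2160000 2 := by
  refine H222.Of.numBC_of sumU_E sumU_B ?_
  intro ι _ _ p n ez F1 F2 F3 o K x s r U g u v Q1 Q2 Q3 ht ht1 he0 he01 hk3 hk31 hd hd1 hc he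
    hcP hL ho hKn hs hr hcls q1 q2 q3 hez f1 f2
  have hr0 : 0 < r := by linarith
  have hl : 0 < p.lam s r := H401.Num.lam_pos (p := p) ht hs hr
  have hth : 0 < p.th s r := H401.Num.th_pos (p := p) ht hs hr
  have hbe : 0 < beI p r := be_pos ht hr
  have hbe1 : beI p r ≤ 1 := H548.beI_le_one ht ht1 he0.le hr
  have hbi : 0 < (beI p r)⁻¹ := inv_pos.2 hbe
  have nv : ∀ (j q : ℕ) (x0 : ℤ), 0 ≤ vN j q ι p n ez F1 F2 F3 o K x s r U g u v Q1 Q2 Q3 x0 := by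
    intro j q x0
    exact sum_nonneg fun k _ => sum_nonneg fun x1 _ => sum_nonneg fun z _ =>
      add_nonneg (H548.chg_nonneg ht hs hr o K x u x0 _ x1 z _) (kinds_nn ht hs hr _ x1 z _)
  have nb : ∀ (q : ℕ) (x0 : ℤ), 0 ≤ bN q ι p n ez F1 F2 F3 o K x s r U g u v Q1 Q2 Q3 x0 := by
    intro q x0
    refine sum_nonneg fun k _ => sum_nonneg fun x1 _ => sum_nonneg fun z _ => ?_
    split_ifs
    · exact H302.eT_nn ht hs hr _ _ _ _
    · exact le_rfl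
  have no : ∀ (q : ℕ) (x0 : ℤ), 0 ≤ oN q ι p n ez F1 F2 F3 o K x s r U g u v Q1 Q2 Q3 x0 := by
    intro q x0
    exact sum_nonneg fun x1 _ => sum_nonneg fun z _ => H302.eT_nn ht hs hr _ _ _ _
  have nc : ∀ x0 : ℤ, 0 ≤ H989.CrB.fCRB mk ι p n ez F1 F2 F3 o K x s r U g u v Q1 Q2 Q3 x0 := by
    intro x0
    refine sum_nonneg fun k _ => sum_nonneg fun x1 _ => sum_nonneg fun z _ => ?_
    split_ifs
    · exact wE_nonneg hbe (wt (o := o) (K := K) (x := x) (u := u) (x0 := x0) ht hs hr).ps _ _ _ _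
    · exact le_rfl
  have nwv : ∀ x0 : ℤ, 0 ≤ ∑ l ∈ range (K + 1), (3 / 4 : ℝ) ^ l *
      vN 0 l ι p n ez F1 F2 F3 o K x s r U g u v Q1 Q2 Q3 x0 := fun x0 =>
    sum_nonneg fun l _ => mul_nonneg (by positivity) (nv 0 l x0)
  have nwb : ∀ x0 : ℤ, 0 ≤ ∑ l ∈ range (K + 1), (3 / 4 : ℝ) ^ l *
      bN (l + 1) ι p n ez F1 F2 F3 o K x s r U g u v Q1 Q2 Q3 x0 := fun x0 =>
    sum_nonneg fun l _ => mul_nonneg (by positivity) (nb (l + 1) x0)
  refine ⟨fun x0 => ?_, fun x0 => ?_, ?_⟩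
  · have h1 := nwv x0
    have h2 := nwb x0
    have h3 := no 0 x0
    have h4 := nv 1 0 x0
    have h5 := nb 0 x0
    have h6 := nc x0
    unfold fE
    linarith
  · exact add_nonneg (H652.dB_nonneg _ _) (H652.payS_nonneg hbe hl _)
  intro t _ x0 _ z J hz1 hz2 hJ
  have hz : 0 < z := by
    refine lt_of_lt_of_le ?_ hz1
    unfold H408.gI H408.tauI
    have := Real.rpow_pos_of_pos (div_pos ht hr0) (p.e0 / 4)
    positivity
  have htau : 0 < tauI p s r := by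
    unfold H408.tauI
    linarith
  set fe := fE ι p n ez F1 F2 F3 o K x s r U g u v Q1 Q2 Q3 x0 with hfe
  have hfe' : fe = ∑ l ∈ range (K + 1), (3 / 4 : ℝ) ^ l *
      vN 0 l ι p n ez F1 F2 F3 o K x s r U g u v Q1 Q2 Q3 x0 +
    ∑ l ∈ range (K + 1), (3 / 4 : ℝ) ^ l *
      bN (l + 1) ι p n ez F1 F2 F3 o K x s r U g u v Q1 Q2 Q3 x0 +
    oN 0 ι p n ez F1 F2 F3 o K x s r U g u v Q1 Q2 Q3 x0 +
    vN 1 0 ι p n ez F1 F2 F3 o K x s r U g u v Q1 Q2 Q3 x0 +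
    bN 0 ι p n ez F1 F2 F3 o K x s r U g u v Q1 Q2 Q3 x0 +
    H989.CrB.fCRB mk ι p n ez F1 F2 F3 o K x s r U g u v Q1 Q2 Q3 x0 := rfl
  have g1 := nwv x0
  have g2 := nwb x0
  have g3 := no 0 x0
  have g4 := nv 1 0 x0
  have g5 := nb 0 x0
  have g6 := nc x0
  -- the data at `x0`
  have hT := wt (o := o) (K := K) (x := x) (u := u) (x0 := x0) ht hs hr
  set c : ℕ → ℤ → ℤ → ι → ℝ := cS p ez U K v F2 x0 with hc
  set S₁ : ℤ := (cx K x).1 with hS
  set T₁ : ℤ := (cx K x).2.2 with hTT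
  set R₁ : ℤ := (cx K x).2.1 with hR
  set T := tS p s r o K x u x0 with hTd
  set e := tE p s r o K x u x0 with hed
  set d := tA p s r o K x u x0 with hdd
  set cu := H170.Win.cut K S₁ T₁ c with hcu
  set P := Pr c with hP
  have hPc : ∀ k < K, ∀ w m, ¬ P k w m → ∀ x ∈ iv k m, cu (k + 1) x w = cu k x w :=
    H74.CutBC.cut_row pr_not
  have in1 : ∀ {y w : ℤ}, y ∈ iv K S₁ → w ∈ iv K T₁ → cu 1 y w = c 1 y w := by
    intro y w hy hw
    rw [hcu, H170.Win.cut_in hy hw]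
    show C1 p ez U K v F2 x0 (min (min 1 K) K) w y = C1 p ez U K v F2 x0 (min 1 K) w y
    rw [min_eq_left (min_le_right 1 K)]
  -- the numbers
  have eH : wS K (fun q => nmH K T₁ S₁ (beI p r) T cu q) ≤ fe := by
    rw [hcu, H74.CutBC.nmH_cut]
    have h0 : ∀ q, nmH K T₁ S₁ (beI p r) T c q = 0 := by
      intro q
      unfold H419.WFamR.nmH H419.WFamR.Wn
      refine sum_eq_zero fun y _ => sum_eq_zero fun w _ => ?_
      rw [hc, H548.cS_zero, zero_dotProduct]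
    have h1 : wS K (fun q => nmH K T₁ S₁ (beI p r) T c q) = 0 := by
      unfold H912.wS
      refine sum_eq_zero fun q _ => ?_
      beta_reduce
      rw [h0, mul_zero]
    rw [h1, hfe']
    linarith
  have eD : wS K (fun q => (beI p r)⁻¹ * nmD K T₁ S₁ d cu q) ≤ fe := by
    rw [hcu, H74.CutBC.nmD_cut]
    have h1 : wS K (fun q => (beI p r)⁻¹ * nmD K T₁ S₁ d c q) ≤
        wS K (fun q => vN 0 q ι p n ez F1 F2 F3 o K x s r U g u v Q1 Q2 Q3 x0) := by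
      refine wS_mono fun q => ?_
      unfold H419.WFamR.nmD H548.vN
      rw [mul_sum, ← range_eq_Ico]
      exact sum_le_sum fun k _ => D_le ht hs hr _ _
    have h2 : wS K (fun q => vN 0 q ι p n ez F1 F2 F3 o K x s r U g u v Q1 Q2 Q3 x0) =
      ∑ l ∈ range (K + 1), (3 / 4 : ℝ) ^ l *
        vN 0 l ι p n ez F1 F2 F3 o K x s r U g u v Q1 Q2 Q3 x0 := rfl
    linarith
  have eE : wS K (fun q => (beI p r)⁻¹ * nmE K T₁ S₁ e cu q) ≤ fe := by
    rw [hcu, H74.CutBC.nmE_cut]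
    have h1 : wS K (fun q => (beI p r)⁻¹ * nmE K T₁ S₁ e c q) ≤
        wS K (fun q => vN 0 q ι p n ez F1 F2 F3 o K x s r U g u v Q1 Q2 Q3 x0) := by
      refine wS_mono fun q => ?_
      unfold H419.WFamR.nmE H548.vN
      rw [mul_sum, ← range_eq_Ico]
      exact sum_le_sum fun k _ => E_le ht hs hr _ _
    have h2 : wS K (fun q => vN 0 q ι p n ez F1 F2 F3 o K x s r U g u v Q1 Q2 Q3 x0) =
      ∑ l ∈ range (K + 1), (3 / 4 : ℝ) ^ l *
        vN 0 l ι p n ez F1 F2 F3 o K x s r U g u v Q1 Q2 Q3 x0 := rfl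
    linarith
  have eB : wS K (fun q => nmB K T₁ S₁ (beI p r) T P cu q) ≤ fe := by
    rw [hcu, H74.CutBC.nmB_cut]
    have h1 : wS K (fun q => nmB K T₁ S₁ (beI p r) T P c q) ≤
        wS K (fun q => bN (q + 1) ι p n ez F1 F2 F3 o K x s r U g u v Q1 Q2 Q3 x0) :=
      wS_mono fun q => H302.nmB_bN ht hs hr (fun k w m h => pr_ch k w m h) q n F1 F3 g Q1 Q2 Q3
    have h2 : wS K (fun q => bN (q + 1) ι p n ez F1 F2 F3 o K x s r U g u v Q1 Q2 Q3 x0) =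
      ∑ l ∈ range (K + 1), (3 / 4 : ℝ) ^ l *
        bN (l + 1) ι p n ez F1 F2 F3 o K x s r U g u v Q1 Q2 Q3 x0 := rfl
    linarith
  have e1H : Wn K T₁ S₁ (beI p r) T (cu 1) 0 ≤ fe := by
    have h1 : Wn K T₁ S₁ (beI p r) T (cu 1) 0 =
        oN 0 ι p n ez F1 F2 F3 o K x s r U g u v Q1 Q2 Q3 x0 := by
      unfold H419.WFamR.Wn H548.oN
      rw [Nat.zero_min]
      refine sum_congr rfl fun y hy => sum_congr rfl fun w hw => ?_
      rw [in1 hy hw]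
      rfl
    linarith
  have e1D : (beI p r)⁻¹ * ∑ k ∈ Ico 0 K, Dn K T₁ S₁ d (cu (k + 1)) k ≤ fe := by
    have h1 : (beI p r)⁻¹ * ∑ k ∈ Ico 0 K, Dn K T₁ S₁ d (cu (k + 1)) k ≤
        vN 1 0 ι p n ez F1 F2 F3 o K x s r U g u v Q1 Q2 Q3 x0 := by
      unfold H548.vN
      rw [mul_sum, Nat.sub_zero, ← range_eq_Ico]
      refine sum_le_sum fun k hk => ?_
      rw [hcu, H74.CutBC.Dn_cut (mem_range.1 hk)]
      exact D_le ht hs hr _ _
    linarith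
  have e1E : (beI p r)⁻¹ * ∑ k ∈ Ico 0 K, En K T₁ S₁ e (cu (k + 1)) k ≤ fe := by
    have h1 : (beI p r)⁻¹ * ∑ k ∈ Ico 0 K, En K T₁ S₁ e (cu (k + 1)) k ≤
        vN 1 0 ι p n ez F1 F2 F3 o K x s r U g u v Q1 Q2 Q3 x0 := by
      unfold H548.vN
      rw [mul_sum, Nat.sub_zero, ← range_eq_Ico]
      refine sum_le_sum fun k hk => ?_
      rw [hcu, H74.CutBC.En_cut (mem_range.1 hk)]
      exact E_le ht hs hr _ _
    linarith
  have e1B : ∑ k ∈ Ico 0 K, Wn K T₁ S₁ (beI p r) T (rs (P k) k (cu (k + 1))) k ≤ fe := by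
    have h1 : ∑ k ∈ Ico 0 K, Wn K T₁ S₁ (beI p r) T (rs (P k) k (cu (k + 1))) k ≤
        bN 0 ι p n ez F1 F2 F3 o K x s r U g u v Q1 Q2 Q3 x0 := by
      refine le_trans (le_of_eq ?_) (H302.Wn_bN ht hs hr (fun k w m h => pr_ch k w m h) n F1 F3 g
        Q1 Q2 Q3)
      refine sum_congr rfl fun k hk => ?_
      rw [hcu, H74.CutBC.Wn_rs_cut (mem_Ico.1 hk).2]
    linarith
  have eX : ∑ k ∈ Ico 0 K, ∑ y ∈ iv K S₁, ∑ w ∈ iv K T₁,
      (if ∃ w', ix (k + 1) w' = cP o x0 (k + 1) - ix (k + 1) y - ix (k + 1) w ∧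
        PbS p s r U K u F3 Q3 x0 k w' (ix k y) then
        wE (beI p r) T k (cu (k + 1)) y w else 0) ≤ fe := by
    have h1 : ∑ k ∈ Ico 0 K, ∑ y ∈ iv K S₁, ∑ w ∈ iv K T₁,
      (if ∃ w', ix (k + 1) w' = cP o x0 (k + 1) - ix (k + 1) y - ix (k + 1) w ∧
        PbS p s r U K u F3 Q3 x0 k w' (ix k y) then
        wE (beI p r) T k (cu (k + 1)) y w else 0) =
        H989.CrB.fCRB mk ι p n ez F1 F2 F3 o K x s r U g u v Q1 Q2 Q3 x0 := by
      unfold H989.CrB.fCRB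
      refine sum_congr rfl fun k hk => sum_congr rfl fun y hy => sum_congr rfl fun w hw => ?_
      rw [hcu, H74.CutBC.wE_cut (mem_Ico.1 hk).2 hy hw]
      rfl
    linarith
  -- caps
  have hC0 : 2 * cCI p s r ^ 2 ≤ 4 ^ J * z ^ 2 := by
    nlinarith [sq_nonneg (cCI p s r)]
  have capc : ∀ k a n m, k ≤ a → a < K → (cCI p s r ^ 2 • (1 : Matrix (Ix k × ι) (Ix k × ι) ℝ)
      - SD (beI p r) T k (a + 1) n m * CP (cu k) k (a + 1) n m
        * SD (beI p r) T k (a + 1) n m).PosSemidef := fun k a n' m h1 h2 =>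
    H74.CapBC.cut_capX ht ht1 hd1 he0.le hs hr hez hKn hcls.toCls q2 x0 (by omega) (by omega)
      (by omega) n' m
  have capc1 : ∀ k a n m, k ≤ a → a < K → (cCI p s r ^ 2 • (1 : Matrix (Ix k × ι) (Ix k × ι) ℝ)
      - SD (beI p r) T k (a + 1) n m * CP (cu (k + 1)) k (a + 1) n m
        * SD (beI p r) T k (a + 1) n m).PosSemidef := fun k a n' m h1 h2 =>
    H74.CapBC.cut_capX ht ht1 hd1 he0.le hs hr hez hKn hcls.toCls q2 x0 (by omega) (by omega)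
      (by omega) n' m
  have tq : p.th s r ^ 2 ≤ tauI p s r ^ 2 := by
    unfold H408.tauI
    nlinarith [sq_nonneg (p.th s r)]
  have upc : ∀ {k : ℕ} {X : Matrix (Ix k × ι) (Ix k × ι) ℝ},
      (p.th s r ^ 2 • (1 : Matrix (Ix k × ι) (Ix k × ι) ℝ) - X).PosSemidef →
      (tauI p s r ^ 2 • (1 : Matrix (Ix k × ι) (Ix k × ι) ℝ) - X).PosSemidef := by
    intro k X h
    have h1 := ((PosSemidef.one (n := Ix k × ι) (R := ℝ)).smul (sub_nonneg.2 tq)).add h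
    have e1 : (tauI p s r ^ 2 - p.th s r ^ 2) • (1 : Matrix (Ix k × ι) (Ix k × ι) ℝ) +
        (p.th s r ^ 2 • (1 : Matrix (Ix k × ι) (Ix k × ι) ℝ) - X) =
        tauI p s r ^ 2 • (1 : Matrix (Ix k × ι) (Ix k × ι) ℝ) - X := by module
    rwa [e1] at h1
  have cap : ∀ k ≤ K, ∀ n m, (tauI p s r ^ 2 • (1 : Matrix (Ix k × ι) (Ix k × ι) ℝ)
      - CP (H652.bS p s r U K u F3 Q3 x0 k) k k n m).PosSemidef := by
    intro k hk n' m
    refine upc ?_
    rcases hk.lt_or_eq with h | h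
    · exact H652.bS_capk hth x0 k h n' m
    · subst h
      exact H652.bS_capN hth x0 n' m
  have cap1 : ∀ k < K, ∀ n m, (tauI p s r ^ 2 • (1 : Matrix (Ix k × ι) (Ix k × ι) ℝ)
      - CP (H652.bS p s r U K u F3 Q3 x0 (k + 1)) k k n m).PosSemidef := fun k hk n' m =>
    upc (H652.bS_capk1 hth x0 k hk n' m)
  have py := H652.payS_nonneg (o := o) (K := K) (M := cx K x) (u := u) (x0 := x0) hbe hl
    (fun k => H652.bS p s r U K u F3 Q3 x0 k)
  have db := H652.dB_nonneg (p := p) (s := s) (r := r) (U := U) (K := K) (u := u) (F3 := F3)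
    (Q3 := Q3) x x0
  set eb' := fB ι p n ez F1 F2 F3 o K x s r U g u v Q1 Q2 Q3 x0 with heb
  have heb' : eb' = dB p s r U K x u F3 Q3 x0 + payS (beI p r) (p.lam s r) o K (cx K x) u
    (fun k => H652.bS p s r U K u F3 Q3 x0 k) x0 := rfl
  have mb0 : H581.TVCP.mB K R₁ S₁ (H652.bS p s r U K u F3 Q3 x0 0) ≤ eb' := by
    have := H652.bS_hB1 (p := p) (s := s) (r := r) (U := U) (K := K) (u := u) (F3 := F3)
      (Q3 := Q3) x x0
    have e1 : H581.TVCP.mB K R₁ S₁ (H652.bS p s r U K u F3 Q3 x0 0) =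
      H581.TVCP.mB K (ix K x.2.1) (ix K x.1) (H652.bS p s r U K u F3 Q3 x0 0) := rfl
    linarith
  have mb1 : ∑ k ∈ Ico 0 K, H581.TVCP.mB K R₁ S₁
      (rs (PbS p s r U K u F3 Q3 x0 k) k (H652.bS p s r U K u F3 Q3 x0 (k + 1))) ≤ eb' := by
    have := H652.bS_hB2 (p := p) (s := s) (r := r) (U := U) (K := K) (u := u) (F3 := F3)
      (Q3 := Q3) x x0
    refine le_trans this ?_
    linarith
  have hZB := H652.pay_hB3 (o := o) (K := K) (M := cx K x) (u := u) (x0 := x0) hbe hl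
    (fun k => H652.bS p s r U K u F3 Q3 x0 k)
  have hBE := H652.pay_hB4 (l := p.lam s r) (o := o) (K := K) (M := cx K x) (u := u) (x0 := x0)
    hbe (fun k => H652.bS p s r U K u F3 Q3 x0 k)
  have fin := H581.FixBC.fixBC_W hbe hbe1 (s := z ^ 2) (q := tauI p s r ^ 2) (by positivity)
    (by positivity) hT (fun k x1 m => tS_two ht hs hr k x1 m) (N := K)
    (b := fun k => H652.bS p s r U K u F3 Q3 x0 k) (c := cu)
    (Pb := PbS p s r U K u F3 Q3 x0) (Pc := P) (H652.PbS_off x0) hPc cap cap1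
    (R₁ := R₁) (S₁ := S₁) (T₁ := T₁) (cc := cP o x0) (H677.cP_pl ho x0) (J := J) hC0 capc capc1
    (E := fe) (EB := eb') mb0 mb1 (by linarith) (by linarith) eH eD eE eB e1H e1D e1E e1B eX
  refine (H329.WinBC.pBC_cls ht hs hr ez U o K x u v F2 F3 Q3 htau hz x0).trans ?_
  have w1 := H74.CutBC.GW_win_cut (N := K) (S := S₁) (R := T₁) (c := c) (be := beI p r)
    (s := z ^ 2) (T := T) R₁ (cP o x0) (fun k a n m => CP (H652.bS p s r U K u F3 Q3 x0 k) k a n m)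
    (fun k => sk (k + 1) ι)
  refine (le_of_eq w1.symm).trans (fin.trans (le_of_eq ?_))
  ring

/-- **The leaf of the pair `(Bg, Cg)`.** -/
theorem lBCg : LBCg := lbc_end (by norm_num) (by norm_num) numBC

end

end Vale.Agent.P141.H581.Num
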