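import Vale.Agent.P141.H609.NodeStep

/-!
# P141, line W: the stage sum with raw partners

`stageT`: the third function is lowered once, to the level `g`, with the first two functions at
their cap. Then the first two functions are lowered together to the level `σ`, and below `σ` the
first function is lowered twice as fast as the second. Only the static pair `(A, B)` is needed at
all levels; the third function is needed at the level `g` (raw partners) and, with a crude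
constant, against low levels of the first function.
-/

namespace Vale.Agent.P141.H581

open Finset Matrix Vale.Agent.P075 Vale.Agent.P141.PL Vale.Agent.P141.PL.H588
open Vale.Agent.P141.PL.H804 Vale.Agent.P141.H958 Vale.Agent.P141.H609

noncomputable section

/-! ### Schedules -/

/-- the third index alone -/
theorem sched1 {f : ℕ → ℕ → ℕ → ℝ} {κ : ℝ} {E : ℕ}
    (h : ∀ e < E, f 0 0 e ≤ f 0 0 (e + 1) + κ) : f 0 0 0 ≤ f 0 0 E + κ * E := by
  induction E with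
  | zero => simp
  | succ E ih =>
    have h1 := ih fun e he => h e (by omega)
    have h2 := h E (by omega)
    push_cast
    linarith

/-- the first two indices together -/
theorem sched2 {f : ℕ → ℕ → ℕ → ℝ} {κA κB : ℝ} {D E : ℕ}
    (hA : ∀ j < D, f j j E ≤ f (j + 1) j E + κA)
    (hB : ∀ j < D, f (j + 1) j E ≤ f (j + 1) (j + 1) E + κB) :
    f 0 0 E ≤ f D D E + D * (κA + κB) := by
  induction D with
  | zero => simp
  | succ D ih =>
    have h1 := ih (fun j hj => hA j (by omega)) fun j hj => hB j (by omega)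
    have h2 := hA D (by omega)
    have h3 := hB D (by omega)
    push_cast
    linarith

/-- the ratio of the last part -/
def rr : ℝ := (√2)⁻¹

theorem rr_pos : 0 < rr := by unfold rr; positivity

theorem rr_sq : rr ^ 2 = 2⁻¹ := by
  unfold rr
  rw [inv_pow, Real.sq_sqrt (by norm_num)]

theorem rr_le : rr ≤ 5 / 7 := by
  have h := rr_sq
  nlinarith [rr_pos]

theorem geo_le (n : ℕ) : ∑ j ∈ range n, rr ^ j ≤ 7 / 2 := by
  have h1 : ∀ n : ℕ, ∑ j ∈ range n, rr ^ j ≤ 7 / 2 * (1 - rr ^ n) := by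
    intro n
    induction n with
    | zero => simp
    | succ n ih =>
      rw [sum_range_succ, pow_succ]
      have := rr_le
      have h3 : 0 ≤ rr ^ n := pow_nonneg rr_pos.le n
      nlinarith
  refine (h1 n).trans ?_
  have h3 : 0 ≤ rr ^ n := pow_nonneg rr_pos.le n
  linarith

/-- the first index twice as fast as the second -/
theorem sched3 {f : ℕ → ℕ → ℕ → ℝ} {K α β : ℝ} {D E : ℕ} (hα : 0 ≤ α) (hβ : 0 ≤ β)
    (ht : ∀ a b e, f a b e ≤ K * (2 ^ (a + b + e))⁻¹)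
    (h1 : ∀ j, f (D + 2 * j) (D + j) E ≤ f (D + 2 * j + 1) (D + j) E + α * rr ^ j)
    (h2 : ∀ j, f (D + 2 * j + 1) (D + j) E ≤ f (D + 2 * j + 2) (D + j) E + α * rr ^ j)
    (h3 : ∀ j, f (D + 2 * j + 2) (D + j) E ≤ f (D + 2 * j + 2) (D + j + 1) E + β * rr ^ j) :
    f D D E ≤ 7 / 2 * (2 * α + β) := by
  have main : ∀ n : ℕ, f D D E ≤ f (D + 2 * n) (D + n) E + (2 * α + β) * ∑ j ∈ range n, rr ^ j := by
    intro n
    induction n with
    | zero => simp
    | succ n ih =>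
      have a1 := h1 n
      have a2 := h2 n
      have a3 := h3 n
      rw [sum_range_succ, show D + 2 * (n + 1) = D + 2 * n + 2 by ring,
        show D + (n + 1) = D + n + 1 by ring]
      linarith
  refine le_of_forall_pos_le_add fun ε hε => ?_
  obtain ⟨n, hn⟩ := exists_pow_lt_of_lt_one (show (0 : ℝ) < ε / (|K| + 1) by positivity)
    (show (1 / 2 : ℝ) < 1 by norm_num)
  have a1 := main n
  have a2 := ht (D + 2 * n) (D + n) E
  have a3 := mul_le_mul_of_nonneg_left (geo_le n) (by positivity : 0 ≤ 2 * α + β)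
  have a4 : K * (2 ^ (D + 2 * n + (D + n) + E) : ℝ)⁻¹ ≤ ε := by
    have b1 : ((2 : ℝ) ^ (D + 2 * n + (D + n) + E))⁻¹ ≤ (1 / 2) ^ n := by
      rw [one_div, inv_pow]
      exact inv_anti₀ (by positivity) (pow_le_pow_right₀ (by norm_num) (by omega))
    calc K * (2 ^ (D + 2 * n + (D + n) + E) : ℝ)⁻¹
        ≤ (|K| + 1) * (2 ^ (D + 2 * n + (D + n) + E) : ℝ)⁻¹ :=
          mul_le_mul_of_nonneg_right (by linarith [le_abs_self K]) (by positivity)
      _ ≤ (|K| + 1) * (1 / 2) ^ n := mul_le_mul_of_nonneg_left b1 (by positivity)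
      _ ≤ (|K| + 1) * (ε / (|K| + 1)) := mul_le_mul_of_nonneg_left hn.le (by positivity)
      _ = ε := by field_simp
  linarith

/-! ### The stage sum -/

variable {N : ℕ} {s : ℕ → Finset Pt} {τ cC : ℝ} {FA FB FC : NM}

/-- **The stage sum, raw partners**: `E` steps of the third function, `D ≥ 1` steps of the first two
functions together, then the tail. The third function stands at the level `cC / 2 ^ (E - 1)`. -/
theorem stageT' (hτ : 0 < τ) (hC : 0 < cC)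
    (capA : ∀ k ∈ Icc 1 N, ∀ m ∈ s k, (1 - gramC ((τ ^ 2)⁻¹ * (4 ^ k)⁻¹) (FA k m)).PosSemidef)
    (capB : ∀ k ∈ Icc 1 N, ∀ m ∈ s k, (1 - gramC ((τ ^ 2)⁻¹ * (4 ^ k)⁻¹) (FB k m)).PosSemidef)
    (capC : ∀ k ∈ Icc 1 N, ∀ m ∈ s k, (1 - gramC ((cC ^ 2)⁻¹ * (4 ^ k)⁻¹) (FC k m)).PosSemidef)
    {P₀ QA QB Z κ' : ℝ} (hP₀ : 0 ≤ P₀) (hQA0 : 0 ≤ QA) (hQB0 : 0 ≤ QB) (hZ : 0 ≤ Z)
    {D E : ℕ} (hD : 1 ≤ D)
    (hAB : ∀ x y, 0 < x → x ≤ τ → 0 < y → y ≤ τ → RP N s x y FA FB ≤ P₀ * (x * y))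
    (hT : ∀ e < E, √(RP N s τ (cC / 2 ^ (e - 1)) FB FC * RP N s (cC / 2 ^ (e - 1)) τ FC FA) ≤
      κ' * (cC / 2 ^ (e - 1)))
    (hQA : RP N s (cC / 2 ^ (E - 1)) τ FC FA ≤ QA)
    (hQB : RP N s τ (cC / 2 ^ (E - 1)) FB FC ≤ QB)
    (hcr : ∀ y, 0 < y → y ≤ τ / 2 ^ (D - 1) → RP N s (cC / 2 ^ (E - 1)) y FC FA ≤ Z * y) :
    UN N s τ τ cC FA FB FC 0 0 0 ≤ 6 * κ' * E + 6 * D * (√(P₀ * QA) + √(P₀ * QB)) +
      21 * √(P₀ * QB) + 42 * √(P₀ * Z * (τ / 2 ^ (D - 1))) := by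
  obtain ⟨K, _, hK⟩ := UN_tail (FA := FA) (FB := FB) (FC := FC) hτ hτ hC capA capB capC
  set xC := cC / 2 ^ (E - 1) with hxC
  have pC : 0 < xC := by positivity
  have lp : ∀ a : ℕ, 0 < τ / 2 ^ (a - 1) := fun a => by positivity
  have ll : ∀ a : ℕ, τ / 2 ^ (a - 1) ≤ τ := fun a => div_le_self hτ.le (one_le_pow₀ (by norm_num))
  have QAm : ∀ a : ℕ, RP N s xC (τ / 2 ^ (a - 1)) FC FA ≤ QA := fun a =>
    (RP_mono pC (lp a) le_rfl (ll a)).trans hQA
  have QBm : ∀ b : ℕ, RP N s (τ / 2 ^ (b - 1)) xC FB FC ≤ QB := fun b =>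
    (RP_mono (lp b) pC (ll b) le_rfl).trans hQB
  -- the centre is the first function
  have stA : ∀ {a b : ℕ} {x q : ℝ}, 0 ≤ q → RP N s xC (τ / 2 ^ (a - 1)) FC FA ≤ q →
      √(P₀ * q * (τ / 2 ^ (b - 1)) / (τ / 2 ^ (a - 1))) ≤ x →
      UN N s τ τ cC FA FB FC a b E ≤ UN N s τ τ cC FA FB FC (a + 1) b E + 6 * x := by
    intro a b x q hq h1 h2
    refine (UN_A hτ hτ hC capA capB capC a b E h1 (hAB _ _ (lp a) (ll a) (lp b) (ll b))).trans ?_
    refine add_le_add_right (mul_le_mul_of_nonneg_left (le_trans (le_of_eq ?_) h2) (by norm_num)) _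
    have pa := lp a
    have pb := lp b
    set ya := τ / 2 ^ (a - 1)
    set yb := τ / 2 ^ (b - 1)
    rw [← Real.sqrt_sq (inv_nonneg.mpr pa.le), ← Real.sqrt_mul (by positivity)]
    congr 1
    field_simp
  -- the centre is the second function
  have stB : ∀ {a b : ℕ} {x : ℝ},
      √(P₀ * QB * (τ / 2 ^ (a - 1)) / (τ / 2 ^ (b - 1))) ≤ x →
      UN N s τ τ cC FA FB FC a b E ≤ UN N s τ τ cC FA FB FC a (b + 1) E + 6 * x := by
    intro a b x h2
    refine (UN_B hτ hτ hC capA capB capC a b E (hAB _ _ (lp a) (ll a) (lp b) (ll b))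
      (QBm b)).trans ?_
    refine add_le_add_right (mul_le_mul_of_nonneg_left (le_trans (le_of_eq ?_) h2) (by norm_num)) _
    have pa := lp a
    have pb := lp b
    set ya := τ / 2 ^ (a - 1)
    set yb := τ / 2 ^ (b - 1)
    rw [← Real.sqrt_sq (inv_nonneg.mpr pb.le), ← Real.sqrt_mul (by positivity)]
    congr 1
    field_simp
  -- part 1
  have q1 := sched1 (f := UN N s τ τ cC FA FB FC) (κ := 6 * κ') (E := E) (fun e he => by
    have h := UN_C hτ hτ hC capA capB capC 0 0 e (x := RP N s τ (cC / 2 ^ (e - 1)) FB FC)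
      (y := RP N s (cC / 2 ^ (e - 1)) τ FC FA) (by simp) (by simp)
    refine h.trans (add_le_add_right (mul_le_mul_of_nonneg_left ?_ (by norm_num)) _)
    have pe : 0 < cC / 2 ^ (e - 1) := by positivity
    have h2 := mul_le_mul_of_nonneg_left (hT e he) (inv_nonneg.mpr pe.le)
    refine h2.trans (le_of_eq ?_)
    field_simp)
  -- part 2
  have q2 := sched2 (f := UN N s τ τ cC FA FB FC) (κA := 6 * √(P₀ * QA)) (κB := 6 * √(P₀ * QB))
    (D := D) (E := E)
    (fun j _ => stA (a := j) (b := j) hQA0 (QAm j) (by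
      have := lp j
      rw [mul_div_assoc, div_self this.ne', mul_one]))
    (fun j _ => stB (a := j + 1) (b := j) (by
      refine Real.sqrt_le_sqrt ?_
      have hj := lp j
      rw [div_le_iff₀ hj]
      refine mul_le_mul_of_nonneg_left ?_ (mul_nonneg hP₀ hQB0)
      exact div_le_div_of_nonneg_left hτ.le (by positivity)
        (pow_le_pow_right₀ (by norm_num) (by omega))))
  -- part 3
  have eD : ∀ i : ℕ, τ / 2 ^ (D + i - 1) = τ / 2 ^ (D - 1) * (2 ^ i)⁻¹ := by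
    intro i
    rw [show D + i - 1 = (D - 1) + i by omega, pow_add]
    field_simp
  set σ := τ / 2 ^ (D - 1) with hσ
  have pσ : 0 < σ := by positivity
  have lσ : ∀ i : ℕ, τ / 2 ^ (D + i - 1) ≤ σ := by
    intro i
    rw [eD]
    exact mul_le_of_le_one_right pσ.le (inv_le_one_of_one_le₀ (one_le_pow₀ (by norm_num)))
  have r2 : ∀ j : ℕ, rr ^ j = √((2 ^ j)⁻¹) := by
    intro j
    rw [← Real.sqrt_sq (pow_nonneg rr_pos.le j), ← pow_mul, mul_comm, pow_mul, rr_sq, inv_pow]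
  have hcA : ∀ (i j : ℕ), √(P₀ * (Z * (τ / 2 ^ (D + i - 1))) * (τ / 2 ^ (D + j - 1)) /
      (τ / 2 ^ (D + i - 1))) ≤ √(P₀ * Z * σ) * rr ^ j := by
    intro i j
    rw [r2, ← Real.sqrt_mul (by positivity)]
    refine Real.sqrt_le_sqrt (le_of_eq ?_)
    have := lp (D + i)
    rw [eD j]
    field_simp
  have q3 := sched3 (f := UN N s τ τ cC FA FB FC) (K := K) (α := 6 * √(P₀ * Z * σ))
    (β := 6 * √(P₀ * QB)) (D := D) (E := E) (by positivity) (by positivity) hK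
    (fun j => by
      have h := stA (a := D + 2 * j) (b := D + j) (q := Z * (τ / 2 ^ (D + 2 * j - 1)))
        (mul_nonneg hZ (lp _).le) (hcr _ (lp _) (lσ _)) (hcA _ _)
      rw [← mul_assoc] at h
      exact h)
    (fun j => by
      have h := stA (a := D + 2 * j + 1) (b := D + j) (q := Z * (τ / 2 ^ (D + (2 * j + 1) - 1)))
        (mul_nonneg hZ (lp _).le) (hcr _ (lp _) (lσ (2 * j + 1))) (hcA (2 * j + 1) j)
      rw [← mul_assoc] at h
      exact h)
    (fun j => by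
      have h := stB (a := D + 2 * j + 2) (b := D + j) (x := √(P₀ * QB) * rr ^ j) (by
        rw [r2, ← Real.sqrt_mul (by positivity)]
        refine Real.sqrt_le_sqrt ?_
        have hb := lp (D + j)
        rw [div_le_iff₀ hb, show D + 2 * j + 2 = D + (2 * j + 2) by ring, eD, eD,
          mul_assoc (P₀ * QB)]
        refine mul_le_mul_of_nonneg_left ?_ (mul_nonneg hP₀ hQB0)
        have h4 : ((2 : ℝ) ^ (2 * j + 2))⁻¹ ≤ (2 ^ j)⁻¹ * (2 ^ j)⁻¹ := by
          rw [← mul_inv, ← pow_add]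
          exact inv_anti₀ (by positivity) (pow_le_pow_right₀ (by norm_num) (by omega))
        have h5 := mul_le_mul_of_nonneg_left h4 pσ.le
        linarith)
      rw [← mul_assoc] at h
      exact h)
  have e1 : 7 / 2 * (2 * (6 * √(P₀ * Z * σ)) + 6 * √(P₀ * QB)) =
      21 * √(P₀ * QB) + 42 * √(P₀ * Z * σ) := by ring
  rw [e1] at q3
  linarith

/-- **The stage sum, raw partners**, levels as numbers: `g` for the third function, `σ` for the
tail; `L₀` the number of levels from `cC` to `g`, `D` the number of levels from `τ` to `σ`. -/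
theorem stageT (hτ : 0 < τ) (hC : 0 < cC)
    (capA : ∀ k ∈ Icc 1 N, ∀ m ∈ s k, (1 - gramC ((τ ^ 2)⁻¹ * (4 ^ k)⁻¹) (FA k m)).PosSemidef)
    (capB : ∀ k ∈ Icc 1 N, ∀ m ∈ s k, (1 - gramC ((τ ^ 2)⁻¹ * (4 ^ k)⁻¹) (FB k m)).PosSemidef)
    (capC : ∀ k ∈ Icc 1 N, ∀ m ∈ s k, (1 - gramC ((cC ^ 2)⁻¹ * (4 ^ k)⁻¹) (FC k m)).PosSemidef)
    {P₀ QA QB Z κ' g σ : ℝ} (hP₀ : 0 ≤ P₀) (hQA0 : 0 ≤ QA) (hQB0 : 0 ≤ QB) (hZ : 0 ≤ Z)
    (hκ : 0 ≤ κ') {D L₀ : ℕ} (hD : 1 ≤ D)
    (hDσ : τ / 2 ^ (D - 1) ≤ σ) (hL : cC / 2 ^ (L₀ - 1) ≤ g)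
    (hAB : ∀ x y, 0 < x → x ≤ τ → 0 < y → y ≤ τ → RP N s x y FA FB ≤ P₀ * (x * y))
    (hT : ∀ x, g ≤ x → x ≤ cC → √(RP N s τ x FB FC * RP N s x τ FC FA) ≤ κ' * x)
    (hQA : RP N s g τ FC FA ≤ QA) (hQB : RP N s τ g FB FC ≤ QB)
    (hcr : ∀ y, 0 < y → y ≤ σ → RP N s g y FC FA ≤ Z * y) :
    UN N s τ τ cC FA FB FC 0 0 0 ≤ 6 * κ' * L₀ + 6 * D * (√(P₀ * QA) + √(P₀ * QB)) +
      21 * √(P₀ * QB) + 42 * √(P₀ * Z * σ) := by
  classical
  have hex : ∃ e : ℕ, cC / 2 ^ (e - 1) ≤ g := ⟨L₀, hL⟩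
  set E := Nat.find hex with hE
  have h1 : cC / 2 ^ (E - 1) ≤ g := Nat.find_spec hex
  have h2 : E ≤ L₀ := Nat.find_min' hex hL
  have h3 : ∀ e < E, g < cC / 2 ^ (e - 1) := fun e he => not_le.1 (Nat.find_min hex he)
  have pE : 0 < cC / 2 ^ (E - 1) := by positivity
  have pD : 0 < τ / 2 ^ (D - 1) := by positivity
  have h := stageT' (E := E) hτ hC capA capB capC hP₀ hQA0 hQB0 hZ hD hAB
    (fun e he => hT _ (h3 e he).le (div_le_self hC.le (one_le_pow₀ (by norm_num))))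
    ((RP_mono pE hτ h1 le_rfl).trans hQA) ((RP_mono hτ pE le_rfl h1).trans hQB)
    (fun y hy hyD => (RP_mono pE hy h1 le_rfl).trans (hcr y hy (hyD.trans hDσ)))
  refine h.trans ?_
  have a1 : 6 * κ' * (E : ℝ) ≤ 6 * κ' * L₀ :=
    mul_le_mul_of_nonneg_left (by exact_mod_cast h2) (by positivity)
  have a2 : √(P₀ * Z * (τ / 2 ^ (D - 1))) ≤ √(P₀ * Z * σ) :=
    Real.sqrt_le_sqrt (mul_le_mul_of_nonneg_left hDσ (mul_nonneg hP₀ hZ))
  linarith

end

end Vale.Agent.P141.H581
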